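import Vale.Agent.P359W29.Defs
import Mathlib.Tactic
import Mathlib.Analysis.SpecialFunctions.Pow.Real
import Mathlib.LinearAlgebra.Dual.Lemmas
import Mathlib.Algebra.Polynomial.Roots

/-!
P359W29, part A: the one-particle space, monomials, powers of linear forms, the torus.
-/

set_option linter.all false

noncomputable section

namespace Vale.Agent.P359W29

open MvPolynomial Module
open scoped TensorProduct ComplexConjugate

/-- the exponent of `u^(Q-a) v^a` -/
def ex (Q a : ℕ) : Fin 2 →₀ ℕ := Finsupp.single 0 (Q - a) + Finsupp.single 1 a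

@[simp] theorem ex_zero (Q a : ℕ) : ex Q a 0 = Q - a := by simp [ex]
@[simp] theorem ex_one (Q a : ℕ) : ex Q a 1 = a := by simp [ex]

theorem mon_eq (Q a : ℕ) :
    (X 0 ^ (Q - a) * X 1 ^ a : MvPolynomial (Fin 2) ℂ) = monomial (ex Q a) 1 := by
  rw [X_pow_eq_monomial, X_pow_eq_monomial, monomial_mul, one_mul, ex]

/-- the monomial `u^(Q-a) v^a` -/
def mon (Q : ℕ) (a : Fin (Q + 1)) : U Q := ⟨X 0 ^ (Q - a) * X 1 ^ (a : ℕ), by
  have h := ((isHomogeneous_X ℂ (0 : Fin 2)).pow (Q - a)).mul ((isHomogeneous_X ℂ (1 : Fin 2)).pow a)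
  rwa [one_mul, one_mul, Nat.sub_add_cancel (Nat.lt_succ_iff.1 a.2)] at h⟩

theorem coeff_mon (Q : ℕ) (a b : Fin (Q + 1)) :
    coeff (ex Q b) (mon Q a).1 = if a = b then 1 else 0 := by
  show coeff _ (X 0 ^ (Q - a) * X 1 ^ (a : ℕ)) = _
  rw [mon_eq, coeff_monomial]
  refine if_congr ⟨fun h => Fin.ext ?_, fun h => h ▸ rfl⟩ rfl rfl
  simpa using congrArg (fun d => d 1) h

theorem sum_mon {Q : ℕ} (p : U Q) : ∑ a : Fin (Q + 1), coeff (ex Q a) p.1 • mon Q a = p := by
  apply Subtype.ext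
  ext d
  simp only [Submodule.coe_sum, Submodule.coe_smul, coeff_sum, coeff_smul, smul_eq_mul, mon, mon_eq,
    coeff_monomial, mul_ite, mul_one, mul_zero]
  by_cases hd : d 0 + d 1 = Q
  · have e : ex Q (d 1) = d := by
      ext s
      fin_cases s
      · simp; omega
      · simp
    rw [Finset.sum_eq_single (⟨d 1, by omega⟩ : Fin (Q + 1))]
    · simp [e]
    · intro b _ hb
      rw [if_neg]
      intro h
      exact hb (Fin.ext (by simpa using congrArg (fun d => d 1) h))
    · simp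
  · rw [Finset.sum_eq_zero, eq_comm]
    · refine IsHomogeneous.coeff_eq_zero p.2 ?_
      rwa [Finsupp.degree_eq_sum, Fin.sum_univ_two]
    · intro b _
      rw [if_neg]
      rintro rfl
      have := b.2
      simp at hd
      omega

/-- coordinates in the monomials -/
def coordM (Q : ℕ) : U Q ≃ₗ[ℂ] (Fin (Q + 1) → ℂ) where
  toFun p a := coeff (ex Q a) p.1
  map_add' p q := funext fun a => by simp
  map_smul' c p := funext fun a => by simp
  invFun c := ∑ a, c a • mon Q a
  left_inv p := sum_mon p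
  right_inv c := funext fun b => by
    simp only [Submodule.coe_sum, Submodule.coe_smul, coeff_sum, coeff_smul, coeff_mon]
    simp

/-- the basis of monomials -/
def bm (Q : ℕ) : Basis (Fin (Q + 1)) ℂ (U Q) := Basis.ofEquivFun (coordM Q)

theorem bm_apply (Q : ℕ) (a : Fin (Q + 1)) : bm Q a = mon Q a := by
  rw [bm, Basis.coe_ofEquivFun]
  show ∑ b, (Pi.single a (1 : ℂ) : Fin (Q + 1) → ℂ) b • mon Q b = _
  simp [Pi.single_apply]

/-- square roots of the binomial coefficients -/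
def sq (Q a : ℕ) : ℂ := ((Real.sqrt (Nat.choose Q a) : ℝ) : ℂ)

theorem sq_mul (Q a : ℕ) : sq Q a * sq Q a = Nat.choose Q a := by
  rw [sq, ← Complex.ofReal_mul, Real.mul_self_sqrt (Nat.cast_nonneg _)]
  simp

theorem sq_ne (Q : ℕ) (a : Fin (Q + 1)) : sq Q a ≠ 0 := fun h => by
  have h1 := sq_mul Q a
  rw [h, mul_zero] at h1
  exact (Nat.choose_pos (Nat.lt_succ_iff.1 a.2)).ne' (by exact_mod_cast h1.symm)

@[simp] theorem conj_sq (Q a : ℕ) : conj (sq Q a) = sq Q a := Complex.conj_ofReal _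

@[simp] theorem sq_zero (Q : ℕ) : sq Q 0 = 1 := by simp [sq]

/-- the basis `e_a = sqrt (binom Q a) u^(Q-a) v^a` -/
def be (Q : ℕ) : Basis (Fin (Q + 1)) ℂ (U Q) :=
  (bm Q).isUnitSMul fun a => (sq_ne Q a).isUnit

theorem be_apply (Q : ℕ) (a : Fin (Q + 1)) : be Q a = sq Q a • mon Q a := by
  rw [be, Basis.isUnitSMul_apply, bm_apply]

theorem be_zero (Q : ℕ) : be Q 0 = mon Q 0 := by simp [be_apply]

/-- powers of linear forms -/
def pw (Q : ℕ) (α β : ℂ) : U Q := ⟨(α • X 0 + β • X 1) ^ Q, by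
  have h : (α • X 0 + β • X 1 : MvPolynomial (Fin 2) ℂ) ∈ homogeneousSubmodule (Fin 2) ℂ 1 :=
    add_mem (Submodule.smul_mem _ _ (isHomogeneous_X ℂ _))
      (Submodule.smul_mem _ _ (isHomogeneous_X ℂ _))
  simpa using IsHomogeneous.pow h Q⟩

theorem pw_mon (Q : ℕ) (α β : ℂ) : pw Q α β =
    ∑ a : Fin (Q + 1), ((Nat.choose Q a : ℂ) * (α ^ (Q - a) * β ^ (a : ℕ))) • mon Q a := by
  apply Subtype.ext
  simp only [Submodule.coe_sum, Submodule.coe_smul, pw, mon]
  rw [add_comm, add_pow, Finset.sum_range]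
  refine Finset.sum_congr rfl fun a _ => ?_
  simp only [smul_eq_C_mul, mul_pow, map_mul, map_pow, map_natCast]
  ring

theorem pw_be (Q : ℕ) (α β : ℂ) (a : Fin (Q + 1)) :
    (be Q).repr (pw Q α β) a = sq Q a * (α ^ (Q - a) * β ^ (a : ℕ)) := by
  have h : pw Q α β = ∑ a : Fin (Q + 1), (sq Q a * (α ^ (Q - a) * β ^ (a : ℕ))) • be Q a := by
    rw [pw_mon]
    refine Finset.sum_congr rfl fun a _ => ?_
    rw [be_apply, smul_smul, ← sq_mul]
    congr 1
    ring
  rw [h, Basis.repr_sum_self]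

theorem pw_one_zero (Q : ℕ) : pw Q 1 0 = mon Q 0 := Subtype.ext (by simp [pw, mon])

theorem pw_smul (Q : ℕ) (c α β : ℂ) : pw Q (c * α) (c * β) = c ^ Q • pw Q α β :=
  Subtype.ext (by simp only [pw, Submodule.coe_smul, mul_smul, ← smul_add, smul_pow])

theorem subst_X (g : Matrix (Fin 2) (Fin 2) ℂ) (s : Fin 2) :
    subst g (X s) = g 0 s • X 0 + g 1 s • X 1 := by simp [subst]

theorem rep_coe {Q : ℕ} (g : SU2) (p : U Q) : (rep Q g p).1 = subst g.1 p.1 := rfl

theorem rep_pw (Q : ℕ) (g : SU2) (α β : ℂ) : rep Q g (pw Q α β) =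
    pw Q (g.1 0 0 * α + g.1 0 1 * β) (g.1 1 0 * α + g.1 1 1 * β) := by
  apply Subtype.ext
  simp only [rep_coe, pw, map_pow, map_add, map_smul, subst_X]
  congr 1
  module

/-- a polynomial identity on an infinite set -/
theorem coef_zero {n : ℕ} {s : Set ℂ} (hs : s.Infinite) (c : Fin n → ℂ) (e : Fin n → ℕ)
    (he : Function.Injective e) (h : ∀ x ∈ s, ∑ k, x ^ e k * c k = 0) (k : Fin n) : c k = 0 := by
  have h1 : (∑ k, Polynomial.monomial (e k) (c k) : Polynomial ℂ) = 0 :=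
    Polynomial.eq_zero_of_infinite_isRoot _ (hs.mono fun x hx => by
      have := h x hx
      simpa [Polynomial.eval_finset_sum, mul_comm] using this)
  have h2 := congrArg (fun p => Polynomial.coeff p (e k)) h1
  simpa [Polynomial.coeff_monomial, he.eq_iff] using h2

theorem mem_of_poly {V : Type*} [AddCommGroup V] [Module ℂ V] (S : Submodule ℂ V) {n : ℕ}
    {s : Set ℂ} (hs : s.Infinite) (w : Fin n → V) (e : Fin n → ℕ) (he : Function.Injective e)
    (h : ∀ x ∈ s, ∑ k, x ^ e k • w k ∈ S) (k : Fin n) : w k ∈ S := by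
  rw [← Subspace.forall_mem_dualAnnihilator_apply_eq_zero_iff]
  intro φ hφ
  refine coef_zero hs (fun k => φ (w k)) e he (fun x hx => ?_) k
  have := (Submodule.mem_dualAnnihilator φ).1 hφ _ (h x hx)
  simpa [map_sum] using this

/-- the element of `SU(2)` with first column `(α, β)` -/
def su (α β : ℂ) (h : conj α * α + conj β * β = 1) : SU2 :=
  ⟨!![α, -conj β; β, conj α], by
    rw [Matrix.mem_specialUnitaryGroup_iff, Matrix.mem_unitaryGroup_iff']
    refine ⟨?_, ?_⟩
    · ext i j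
      fin_cases i <;> fin_cases j <;>
        simp [Matrix.mul_apply, Fin.sum_univ_two, Matrix.star_apply] <;>
        first | linear_combination h | ring
    · rw [Matrix.det_fin_two_of]
      linear_combination h⟩

theorem orbit_top {Q : ℕ} (S : Submodule ℂ (U Q)) (h : ∀ g, rep Q g (mon Q 0) ∈ S) : S = ⊤ := by
  have h1 : ∀ x ∈ Set.range (fun x : ℝ => (x : ℂ)), pw Q 1 x ∈ S := by
    rintro _ ⟨x, rfl⟩
    have hx : 0 < 1 + x ^ 2 := by positivity
    obtain ⟨c, hc⟩ : ∃ c : ℝ, c * c * (1 + x ^ 2) = 1 :=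
      ⟨(Real.sqrt (1 + x ^ 2))⁻¹, by
        rw [← mul_inv, Real.mul_self_sqrt hx.le, inv_mul_cancel₀ hx.ne']⟩
    have hc0 : (c : ℂ) ≠ 0 := by
      intro h0
      rw [show c = 0 by exact_mod_cast h0] at hc
      simp at hc
    have h2 := h (su c (c * x) (by
      simp only [map_mul, Complex.conj_ofReal]
      have : (c : ℂ) * c * (1 + x ^ 2) = 1 := by exact_mod_cast hc
      linear_combination this))
    rw [← pw_one_zero, rep_pw] at h2
    simp only [su, Matrix.of_apply, Matrix.cons_val', Matrix.cons_val_zero, Matrix.cons_val_one,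
      Matrix.cons_val_fin_one, mul_zero, add_zero, mul_assoc, mul_one x] at h2
    rw [pw_smul] at h2
    simpa using (S.smul_mem_iff (pow_ne_zero Q hc0)).1 h2
  have h2 : ∀ a : Fin (Q + 1), (Nat.choose Q a : ℂ) • mon Q a ∈ S :=
    mem_of_poly S (Set.infinite_range_of_injective Complex.ofReal_injective) _ (fun a => a.1)
      Fin.val_injective fun x hx => by
        have := h1 x hx
        rw [pw_mon] at this
        simpa [smul_smul, mul_comm] using this
  rw [eq_top_iff, ← (bm Q).span_eq, Submodule.span_le]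
  rintro _ ⟨a, rfl⟩
  rw [bm_apply]
  exact (S.smul_mem_iff (by exact_mod_cast (Nat.choose_pos (Nat.lt_succ_iff.1 a.2)).ne')).1 (h2 a)

theorem pw_top {Q : ℕ} (S : Submodule ℂ (U Q)) (h : ∀ α β, pw Q α β ∈ S) : S = ⊤ :=
  orbit_top S fun g => by rw [← pw_one_zero, rep_pw]; exact h _ _

/-- the torus -/
def dg (z : ℂ) (h : conj z * z = 1) : SU2 := su z 0 (by simpa using h)

theorem rep_dg (Q : ℕ) (z : ℂ) (h : conj z * z = 1) (a : Fin (Q + 1)) :
    rep Q (dg z h) (be Q a) = (z ^ (Q - a) * conj z ^ (a : ℕ)) • be Q a := by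
  rw [be_apply, map_smul, smul_comm]
  congr 1
  apply Subtype.ext
  simp [rep_coe, mon, subst_X, dg, su, smul_pow, smul_smul, mul_comm]

theorem repr_dg (Q : ℕ) (z : ℂ) (h : conj z * z = 1) (p : U Q) (a : Fin (Q + 1)) :
    (be Q).repr (rep Q (dg z h) p) a = z ^ (Q - a) * conj z ^ (a : ℕ) * (be Q).repr p a := by
  conv_lhs => rw [← (be Q).sum_repr p]
  simp only [map_sum, map_smul, rep_dg, smul_smul]
  simp [Finsupp.single_apply, mul_comm]

/-- a point of the circle that separates the weights up to `M` -/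
theorem exists_gen (M : ℕ) : ∃ z : ℂ, conj z * z = 1 ∧
    ∀ a b c d : ℕ, a + d ≤ M → c + b ≤ M → z ^ a * conj z ^ b = z ^ c * conj z ^ d →
      a + d = c + b := by
  have hp := Complex.isPrimitiveRoot_exp (M + 1) (Nat.succ_ne_zero M)
  set z := Complex.exp (2 * Real.pi * Complex.I / ((M + 1 : ℕ) : ℂ))
  have hz : conj z * z = 1 := by
    rw [Complex.conj_mul', hp.norm'_eq_one (Nat.succ_ne_zero M)]
    simp
  refine ⟨z, hz, fun a b c d h1 h2 h => hp.pow_inj (by omega) (by omega) ?_⟩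
  have e : ∀ k : ℕ, conj z ^ k * z ^ k = 1 := fun k => by rw [← mul_pow, hz, one_pow]
  rw [pow_add, pow_add]
  linear_combination (z ^ b * z ^ d) * h - z ^ a * z ^ d * e b + z ^ c * z ^ b * e d

end Vale.Agent.P359W29

end
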