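import Vale.Agent.P359W29.A
import Vale.Agent.P359.Stmt

/-!
P359W29, part B: inner products; the invariant inner product on `U_Q`; irreducibility.
-/

set_option linter.all false

noncomputable section

namespace Vale.Agent.P359W29

open MvPolynomial Module
open Vale.Agent.P359 (braket)
open scoped TensorProduct ComplexConjugate

section core

variable {V : Type} [AddCommGroup V] [Module ℂ V] (B : InnerProductSpace.Core ℂ V)

/-- an inner product as a sesquilinear map -/
def ses : V →ₗ⋆[ℂ] V →ₗ[ℂ] ℂ :=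
  LinearMap.mk₂'ₛₗ (starRingEnd ℂ) (RingHom.id ℂ) B.inner B.add_left (fun c x y => B.smul_left x y c)
    (fun x y z => by
      rw [← B.conj_inner_symm, B.add_left, map_add, B.conj_inner_symm, B.conj_inner_symm])
    (fun c x y => by
      rw [← B.conj_inner_symm, B.smul_left, map_mul, B.conj_inner_symm, Complex.conj_conj]
      rfl)

theorem ses_apply (x y : V) : B.inner x y = ses B x y := rfl

theorem ses_conj (x y : V) : conj (ses B y x) = ses B x y := B.conj_inner_symm x y

theorem ses_pos {x : V} (hx : x ≠ 0) : ∃ c : ℝ, 0 < c ∧ ses B x x = c := by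
  have h1 : (ses B x x).im = 0 := Complex.conj_eq_iff_im.1 (ses_conj B x x)
  refine ⟨(ses B x x).re, lt_of_le_of_ne (B.re_inner_nonneg x) fun h => hx (B.definite x ?_),
    Complex.ext rfl h1⟩
  exact Complex.ext h.symm h1

variable {ι : Type} [Fintype ι] [DecidableEq ι] (b : Basis ι ℂ V)

theorem ses_basis {c : ℂ} (h : ∀ i j, ses B (b i) (b j) = if i = j then c else 0) (x y : V) :
    ses B x y = c * braket (b.repr x) (b.repr y) := by
  conv_lhs => rw [← b.sum_repr x, ← b.sum_repr y]
  simp only [map_sum, LinearMap.sum_apply, map_smul, LinearMap.map_smulₛₗ, LinearMap.smul_apply, h,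
    smul_eq_mul, mul_ite, mul_zero, Finset.sum_ite_eq, Finset.sum_ite_eq', Finset.mem_univ, if_true,
    braket, Finset.mul_sum]
  exact Finset.sum_congr rfl fun i _ => by simp only [RCLike.star_def]; ring

/-- the inner product for which `b` is orthonormal -/
@[reducible] def coreOf : InnerProductSpace.Core ℂ V where
  inner x y := braket (b.repr x) (b.repr y)
  conj_inner_symm x y := by simp [braket, mul_comm]
  re_inner_nonneg x := by
    simp only [braket, map_sum]
    exact Finset.sum_nonneg fun i _ => by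
      rw [RCLike.star_def, Complex.conj_mul']
      show 0 ≤ (((‖b.repr x i‖ : ℝ) : ℂ) ^ 2).re
      rw [← Complex.ofReal_pow, Complex.ofReal_re]
      positivity
  add_left x y z := by simp [braket, add_mul, Finset.sum_add_distrib]
  smul_left x y r := by simp [braket, Finset.mul_sum, mul_assoc]
  definite x h := by
    have h1 : ∑ i, ‖b.repr x i‖ ^ 2 = 0 := by
      have h2 : ∑ i, star (b.repr x i) * b.repr x i = 0 := h
      simp only [RCLike.star_def, Complex.conj_mul'] at h2
      exact_mod_cast h2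
    rw [Finset.sum_eq_zero_iff_of_nonneg fun i _ => by positivity] at h1
    exact b.ext_elem fun i => by simpa using h1 i (Finset.mem_univ i)

theorem coreOf_ses (x y : V) : ses (coreOf b) x y = braket (b.repr x) (b.repr y) := rfl

theorem coreOf_basis (i : ι) (y : V) : ses (coreOf b) (b i) y = b.repr y i := by
  simp [coreOf_ses, braket, Finsupp.single_apply]

theorem IsOrthProj.unique {W : Submodule ℂ V} {P P' : V →ₗ[ℂ] V} (h : IsOrthProj B W P)
    (h' : IsOrthProj B W P') : P = P' := by
  ext x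
  have m := W.sub_mem (h x).1 (h' x).1
  have h1 := (h x).2 _ m
  have h2 := (h' x).2 _ m
  rw [← sub_eq_zero]
  apply B.definite
  rw [ses_apply] at *
  rw [show ses B (P x - P' x) (P x - P' x) = ses B (P x - P' x) (x - P' x) -
    ses B (P x - P' x) (x - P x) by rw [← map_sub]; congr 1; abel, h1, h2, sub_zero]

end core

theorem orb_ext {Q : ℕ} {σ : ℂ →+* ℂ} {V : Type} [AddCommGroup V] [Module ℂ V]
    {F G : U Q →ₛₗ[σ] V} (h : ∀ g, F (rep Q g (mon Q 0)) = G (rep Q g (mon Q 0))) : F = G :=
  LinearMap.eqLocus_eq_top.1 (orbit_top (LinearMap.eqLocus F G) h)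

theorem pw_ext {Q : ℕ} {σ : ℂ →+* ℂ} {V : Type} [AddCommGroup V] [Module ℂ V]
    {F G : U Q →ₛₗ[σ] V} (h : ∀ α β, F (pw Q α β) = G (pw Q α β)) : F = G :=
  LinearMap.eqLocus_eq_top.1 (pw_top (LinearMap.eqLocus F G) h)

/-- the standard inner product -/
abbrev B0 (Q : ℕ) : InnerProductSpace.Core ℂ (U Q) := coreOf (be Q)

theorem B0_pw (Q : ℕ) (α β α' β' : ℂ) :
    ses (B0 Q) (pw Q α β) (pw Q α' β') = (conj α * α' + conj β * β') ^ Q := by
  rw [coreOf_ses, braket, add_comm (conj α * α'), add_pow, Finset.sum_range]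
  refine Finset.sum_congr rfl fun a _ => ?_
  simp only [pw_be, RCLike.star_def, map_mul, map_pow, conj_sq, ← sq_mul, mul_pow]
  ring

theorem B0_inv (Q : ℕ) (g : SU2) (p q : U Q) :
    ses (B0 Q) (rep Q g p) (rep Q g q) = ses (B0 Q) p q := by
  have hg := Matrix.mem_unitaryGroup_iff'.1 (Matrix.mem_specialUnitaryGroup_iff.1 g.2).1
  have e := fun i j => congrFun (congrFun hg i) j
  have e00 := e 0 0
  have e01 := e 0 1
  have e10 := e 1 0
  have e11 := e 1 1
  simp [Matrix.mul_apply, Fin.sum_univ_two, Matrix.star_apply] at e00 e01 e10 e11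
  have h1 : ∀ α β, ses (B0 Q) (rep Q g (pw Q α β)) ∘ₗ rep Q g = ses (B0 Q) (pw Q α β) := by
    intro α β
    refine pw_ext fun α' β' => ?_
    show ses (B0 Q) (rep Q g (pw Q α β)) (rep Q g (pw Q α' β')) = _
    rw [rep_pw, rep_pw, B0_pw, B0_pw]
    congr 1
    simp only [map_add, map_mul]
    linear_combination conj α * α' * e00 + conj α * β' * e01 + conj β * α' * e10 +
      conj β * β' * e11
  have h2 : ((ses (B0 Q)).flip (rep Q g q)).comp (rep Q g) = (ses (B0 Q)).flip q :=
    pw_ext fun α β => LinearMap.congr_fun (h1 α β) q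
  exact LinearMap.congr_fun h2 p

theorem rep_inv {Q : ℕ} (g : SU2) (p : U Q) : rep Q g (rep Q g⁻¹ p) = p := by
  rw [← Module.End.mul_apply, ← map_mul, mul_inv_cancel, map_one, Module.End.one_apply]

/-- uniqueness of the invariant inner product up to a positive factor -/
theorem inv_unique {Q : ℕ} (B : InnerProductSpace.Core ℂ (U Q))
    (h : ∀ g p q, ses B (rep Q g p) (rep Q g q) = ses B p q) :
    ∃ c : ℝ, 0 < c ∧ ∀ p q, ses B p q = c * ses (B0 Q) p q := by
  obtain ⟨c, hc, e⟩ := ses_pos B ((be Q).ne_zero 0)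
  obtain ⟨z, hz, hs⟩ := exists_gen (2 * Q)
  have h1 : ∀ a, ses B (be Q 0) (be Q a) = c * ses (B0 Q) (be Q 0) (be Q a) := fun a => by
    rw [coreOf_basis]
    by_cases ha : a = 0
    · simp [ha, e]
    · have h2 := h (dg z hz) (be Q 0) (be Q a)
      simp only [rep_dg, map_smul, LinearMap.map_smulₛₗ, LinearMap.smul_apply, smul_eq_mul,
        Fin.val_zero, pow_zero, mul_one, Nat.sub_zero, map_pow] at h2
      rw [Basis.repr_self, Finsupp.single_eq_of_ne (Ne.symm ha), mul_zero]
      by_contra h0
      have h3 : z ^ (Q - a) * conj z ^ (a + Q) = z ^ 0 * conj z ^ 0 := by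
        apply mul_right_cancel₀ h0
        rw [pow_add]
        linear_combination h2
      have := hs _ _ _ _ (by omega) (by omega) h3
      exact ha (Fin.ext (by rw [Fin.val_zero]; omega))
  have h2 : ses B (be Q 0) = (c : ℂ) • ses (B0 Q) (be Q 0) := (be Q).ext h1
  have h3 : ses B = (c : ℂ) • ses (B0 Q) := orb_ext fun g => LinearMap.ext fun q => by
    rw [← rep_inv g q, h, ← be_zero, h2]
    simp only [LinearMap.smul_apply, B0_inv]
  exact ⟨c, hc, fun p q => by rw [h3]; simp⟩

theorem circle_inf : {x : ℂ | conj x * x = 1}.Infinite :=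
  Set.infinite_of_injective_forall_mem
    (f := fun n : ℕ => Complex.exp (2 * Real.pi * Complex.I / ((n + 1 : ℕ) : ℂ)))
    (fun m n h => by
      have h1 := Complex.isPrimitiveRoot_exp (m + 1) (Nat.succ_ne_zero m)
      have h2 := Complex.isPrimitiveRoot_exp (n + 1) (Nat.succ_ne_zero n)
      simp only at h
      rw [h] at h1
      have := h1.unique h2
      omega)
    fun n => by
      show conj _ * _ = (1 : ℂ)
      rw [Complex.conj_mul',
        (Complex.isPrimitiveRoot_exp (n + 1) (Nat.succ_ne_zero n)).norm'_eq_one (Nat.succ_ne_zero n)]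
      simp

theorem sub_top {Q : ℕ} (S : Submodule ℂ (U Q)) (h : ∀ g, ∀ p ∈ S, rep Q g p ∈ S) {p : U Q}
    (hp : p ∈ S) (h0 : p ≠ 0) : S = ⊤ := by
  obtain ⟨g, hg⟩ : ∃ g, ses (B0 Q) (rep Q g (mon Q 0)) p ≠ 0 := by
    by_contra k
    push Not at k
    have h1 : (ses (B0 Q)).flip p = 0 := orb_ext k
    exact h0 ((B0 Q).definite p (LinearMap.congr_fun h1 p))
  rw [← rep_inv g p, B0_inv, ← be_zero, coreOf_basis] at hg
  set q := rep Q g⁻¹ p
  have hq : q ∈ S := h _ _ hp
  have h2 := mem_of_poly S circle_inf (fun a => (be Q).repr q a • be Q a) (fun a => 2 * a.1)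
    (fun a b k => Fin.ext (by simpa using k)) (fun x hx => by
      have hx' : conj (conj x) * conj x = 1 := by rw [Complex.conj_conj, mul_comm]; exact hx
      have h3 := S.smul_mem (x ^ Q) (h (dg _ hx') q hq)
      rw [← (be Q).sum_repr (rep Q _ q), Finset.smul_sum] at h3
      convert h3 using 2 with a
      rw [repr_dg, smul_smul, smul_smul, Complex.conj_conj]
      congr 1
      have e : x ^ Q = x ^ (Q - a) * x ^ (a : ℕ) := by
        rw [← pow_add, Nat.sub_add_cancel (Nat.lt_succ_iff.1 a.2)]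
      have e' : conj x ^ (Q - a) * x ^ (Q - a) = 1 := by rw [← mul_pow, hx, one_pow]
      rw [e, two_mul, pow_add]
      linear_combination (-(x ^ (a : ℕ) * x ^ (a : ℕ) * (be Q).repr q a)) * e') 0
  refine orbit_top S fun g => h g _ ?_
  rw [← be_zero]
  exact (S.smul_mem_iff hg).1 h2

theorem irred (Q : ℕ) : (rep Q).IsIrreducible where
  exists_pair_ne := ⟨⊥, ⊤, fun h => (be Q).ne_zero 0 (by
    have h1 : be Q 0 ∈ (⊤ : Subrepresentation (rep Q)).toSubmodule := Submodule.mem_top
    rw [← h] at h1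
    exact h1)⟩
  eq_bot_or_eq_top S := by
    by_cases h : S.toSubmodule = ⊥
    · exact Or.inl (Subrepresentation.ext h)
    · obtain ⟨p, hp, h0⟩ := Submodule.exists_mem_ne_zero_of_ne_bot h
      exact Or.inr (Subrepresentation.ext (sub_top _ (fun g p hp => S.apply_mem_toSubmodule g hp) hp h0))

end Vale.Agent.P359W29

end
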