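import Vale.Agent.P359W29.B
import Vale.Agent.P359.Bdl.B2

/-!
P359W29, part C: the intertwiner `U_{2q} → U_{q+1} ⊗ U_{q+1}`.
-/

set_option linter.all false
set_option maxSynthPendingDepth 3

noncomputable section

namespace Vale.Agent.P359W29

open MvPolynomial Module
open Vale.Agent.P359 (braket wVec wAmp)
open scoped TensorProduct ComplexConjugate

theorem repr_be {Q : ℕ} (p : U Q) (a : Fin (Q + 1)) :
    sq Q a * (be Q).repr p a = coeff (ex Q a) p.1 := by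
  conv_rhs => rw [← (be Q).sum_repr p]
  simp only [be_apply, Submodule.coe_sum, Submodule.coe_smul, coeff_sum, coeff_smul, coeff_mon]
  simp [mul_comm]

theorem coeff_pw (q : ℕ) (α β : ℂ) {a : ℕ} (ha : a ≤ q) :
    coeff (ex q a) (pw q α β).1 = Nat.choose q a * (α ^ (q - a) * β ^ a) := by
  have h := repr_be (pw q α β) ⟨a, by omega⟩
  rw [pw_be, ← mul_assoc, sq_mul] at h
  exact h.symm

/-- a variable times a power of a linear form -/
def xp (q : ℕ) (s : Fin 2) (α β : ℂ) : U (q + 1) := ⟨X s * (pw q α β).1, by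
  have h := (isHomogeneous_X ℂ s).mul (pw q α β).2
  rwa [add_comm] at h⟩

theorem rep_xp (q : ℕ) (g : SU2) (s : Fin 2) (α β : ℂ) : rep (q + 1) g (xp q s α β) =
    g.1 0 s • xp q 0 (g.1 0 0 * α + g.1 0 1 * β) (g.1 1 0 * α + g.1 1 1 * β) +
      g.1 1 s • xp q 1 (g.1 0 0 * α + g.1 0 1 * β) (g.1 1 0 * α + g.1 1 1 * β) := by
  apply Subtype.ext
  simp only [rep_coe, xp, map_mul, subst_X, ← rep_pw, Submodule.coe_add, Submodule.coe_smul,
    add_mul, smul_mul_assoc]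

theorem repr_up (q : ℕ) (α β : ℂ) (a : Fin (q + 2)) :
    ((q : ℂ) + 1) * (be (q + 1)).repr (xp q 0 α β) a =
      sq (q + 1) a * (((q : ℂ) + 1 - (a : ℕ)) * (α ^ (q - a) * β ^ (a : ℕ))) := by
  apply mul_left_cancel₀ (sq_ne (q + 1) a)
  rw [mul_left_comm, repr_be, ← mul_assoc, sq_mul]
  by_cases ha : (a : ℕ) ≤ q
  · have e : ex (q + 1) a = Finsupp.single 0 1 + ex q a := by
      ext s
      fin_cases s
      · simp; omega
      · simp
    have h := congrArg (fun n : ℕ => (n : ℂ)) (Nat.choose_mul_succ_eq q a)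
    simp only [Nat.cast_mul, Nat.cast_sub (show (a : ℕ) ≤ q + 1 by omega), Nat.cast_add,
      Nat.cast_one] at h
    rw [e, xp, coeff_X_mul, coeff_pw q α β ha]
    linear_combination (α ^ (q - a) * β ^ (a : ℕ)) * h
  · have e : (a : ℕ) = q + 1 := by omega
    rw [xp, coeff_X_mul', if_neg (by simp [e]), e]
    simp

theorem repr_dn (q : ℕ) (α β : ℂ) (b : Fin (q + 2)) :
    ((q : ℂ) + 1) * (be (q + 1)).repr (xp q 1 α β) b =
      sq (q + 1) b * (((b : ℕ) : ℂ) * (α ^ (q + 1 - b) * β ^ ((b : ℕ) - 1))) := by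
  apply mul_left_cancel₀ (sq_ne (q + 1) b)
  rw [mul_left_comm, repr_be, ← mul_assoc, sq_mul]
  obtain ⟨b, hb⟩ := b
  rcases b with _ | c
  · rw [xp, coeff_X_mul', if_neg (by simp)]
    simp
  · have e : ex (q + 1) (c + 1) = Finsupp.single 1 1 + ex q c := by
      ext s
      fin_cases s
      · simp
      · simp; omega
    have h := congrArg (fun n : ℕ => (n : ℂ)) (Nat.add_one_mul_choose_eq q c)
    simp only [Nat.cast_mul, Nat.cast_add, Nat.cast_one] at h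
    simp only [Nat.add_sub_add_right, Nat.add_sub_cancel, Nat.cast_add, Nat.cast_one]
    rw [e, xp, coeff_X_mul, coeff_pw q α β (by omega)]
    linear_combination (α ^ (q - c) * β ^ c) * h

/-- the basis of `U_Q ⊗ U_Q` -/
def b2 (Q : ℕ) : Basis (Fin (Q + 1) × Fin (Q + 1)) ℂ (U Q ⊗[ℂ] U Q) := (be Q).tensorProduct (be Q)

theorem b2_tmul {Q : ℕ} (p p' : U Q) (a b : Fin (Q + 1)) :
    (b2 Q).repr (p ⊗ₜ p') (a, b) = (be Q).repr p a * (be Q).repr p' b := by
  rw [b2, Basis.tensorProduct_repr_tmul_apply, smul_eq_mul, mul_comm]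

/-- the pair vectors -/
def wv (Q n : ℕ) : U Q ⊗[ℂ] U Q := (b2 Q).equivFun.symm (wVec Q n)

theorem repr_wv (Q n : ℕ) : ⇑((b2 Q).repr (wv Q n)) = wVec Q n :=
  (b2 Q).equivFun.apply_symm_apply _

/-- `(u ⊗ v - v ⊗ u) (l^q ⊗ l^q)` -/
def am (q : ℕ) (α β : ℂ) : U (q + 1) ⊗[ℂ] U (q + 1) :=
  xp q 0 α β ⊗ₜ xp q 1 α β - xp q 1 α β ⊗ₜ xp q 0 α β

theorem rep_am (q : ℕ) (g : SU2) (α β : ℂ) : (rep (q + 1)).tprod (rep (q + 1)) g (am q α β) =
    am q (g.1 0 0 * α + g.1 0 1 * β) (g.1 1 0 * α + g.1 1 1 * β) := by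
  have hd := (Matrix.mem_specialUnitaryGroup_iff.1 g.2).2
  rw [Matrix.det_fin_two] at hd
  simp only [am, Representation.tprod_apply, map_sub, TensorProduct.map_tmul, rep_xp,
    TensorProduct.add_tmul, TensorProduct.tmul_add, TensorProduct.tmul_smul,
    ← TensorProduct.smul_tmul']
  generalize xp q 0 _ _ = x
  generalize xp q 1 _ _ = y
  linear_combination (norm := module) hd • (x ⊗ₜ[ℂ] y - y ⊗ₜ[ℂ] x)

theorem pow_term (q a b : ℕ) (ha : a ≤ q + 1) (hb : b ≤ q + 1) (α β : ℂ) :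
    ((q : ℂ) + 1 - a) * (α ^ (q - a) * β ^ a) * (b * (α ^ (q + 1 - b) * β ^ (b - 1))) =
      ((q : ℂ) + 1 - a) * b * (α ^ (2 * q - (a + b - 1)) * β ^ (a + b - 1)) := by
  by_cases h1 : a = q + 1
  · simp [h1]
  by_cases h2 : b = 0
  · simp [h2]
  rw [show 2 * q - (a + b - 1) = q - a + (q + 1 - b) by omega,
    show a + b - 1 = a + (b - 1) by omega, pow_add, pow_add]
  ring

theorem am_eq (q : ℕ) (α β : ℂ) : ((q : ℂ) + 1) • am q α β =
    ∑ k : Fin (2 * q + 1), (α ^ (2 * q - k) * β ^ (k : ℕ)) • wv (q + 1) (k + 1) := by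
  refine (b2 (q + 1)).ext_elem fun ⟨a, b⟩ => ?_
  have hq : (q : ℂ) + 1 ≠ 0 := by exact_mod_cast Nat.succ_ne_zero q
  have hR : (b2 (q + 1)).repr (∑ k : Fin (2 * q + 1), (α ^ (2 * q - k) * β ^ (k : ℕ)) •
      wv (q + 1) (k + 1)) (a, b) = (α ^ (2 * q - (a + b - 1)) * β ^ ((a : ℕ) + b - 1)) *
        ((((b : ℕ) : ℂ) - (a : ℕ)) * (sq (q + 1) a * sq (q + 1) b)) := by
    simp only [map_sum, map_smul, Finsupp.coe_finset_sum, Finset.sum_apply, Finsupp.smul_apply,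
      repr_wv, wVec, wAmp, smul_eq_mul]
    by_cases h : (a : ℕ) = b
    · simp [h]
    · rw [Finset.sum_eq_single (⟨a + b - 1, by omega⟩ : Fin (2 * q + 1))]
      · rw [if_pos (by simp only; omega)]
        simp [sq]
      · intro k _ hk
        rw [if_neg fun e => hk (Fin.ext (by simp only; omega))]
        simp
      · simp
  apply mul_left_cancel₀ hq
  rw [hR]
  simp only [am, map_smul, map_sub, Finsupp.smul_apply, Finsupp.sub_apply, b2_tmul, smul_eq_mul]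
  have h1 := pow_term q a b (by omega) (by omega) α β
  have h2 := pow_term q b a (by omega) (by omega) α β
  rw [add_comm (b : ℕ)] at h2
  have u1 := repr_up q α β a
  have u2 := repr_up q α β b
  have d1 := repr_dn q α β a
  have d2 := repr_dn q α β b
  calc _ = (((q : ℂ) + 1) * (be (q + 1)).repr (xp q 0 α β) a) *
        (((q : ℂ) + 1) * (be (q + 1)).repr (xp q 1 α β) b) -
      (((q : ℂ) + 1) * (be (q + 1)).repr (xp q 1 α β) a) *
        (((q : ℂ) + 1) * (be (q + 1)).repr (xp q 0 α β) b) := by ring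
    _ = _ := by
      rw [u1, u2, d1, d2]
      linear_combination (sq (q + 1) a * sq (q + 1) b) * (h1 - h2)

/-- the intertwiner -/
def phi (q : ℕ) : U (2 * q) →ₗ[ℂ] U (q + 1) ⊗[ℂ] U (q + 1) :=
  (bm (2 * q)).constr ℂ fun k => (Nat.choose (2 * q) k : ℂ)⁻¹ • wv (q + 1) (k + 1)

theorem ch_ne (n : ℕ) (k : Fin (n + 1)) : (Nat.choose n k : ℂ) ≠ 0 := by
  exact_mod_cast (Nat.choose_pos (Nat.lt_succ_iff.1 k.2)).ne'

theorem phi_mon (q : ℕ) (k : Fin (2 * q + 1)) :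
    phi q (mon _ k) = (Nat.choose (2 * q) k : ℂ)⁻¹ • wv (q + 1) (k + 1) := by
  rw [← bm_apply, phi, Basis.constr_basis]

theorem phi_pw (q : ℕ) (α β : ℂ) : phi q (pw _ α β) = ((q : ℂ) + 1) • am q α β := by
  rw [am_eq, pw_mon, map_sum]
  refine Finset.sum_congr rfl fun k _ => ?_
  rw [map_smul, phi_mon, smul_smul, mul_right_comm, mul_inv_cancel₀ (ch_ne _ k), one_mul]

/-- intertwiners -/
def Itw {q : ℕ} (ψ : U (2 * q) →ₗ[ℂ] U (q + 1) ⊗[ℂ] U (q + 1)) : Prop :=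
  ∀ g p, ψ (rep _ g p) = (rep (q + 1)).tprod (rep (q + 1)) g (ψ p)

theorem phi_itw (q : ℕ) : Itw (phi q) := fun g p => by
  have h : phi q ∘ₗ rep _ g = (rep (q + 1)).tprod (rep (q + 1)) g ∘ₗ phi q := pw_ext fun α β => by
    simp only [LinearMap.comp_apply, rep_pw, phi_pw, map_smul, rep_am]
  exact LinearMap.congr_fun h p

theorem phi_inj (q : ℕ) : Function.Injective (phi q) := by
  rw [← LinearMap.ker_eq_bot]
  by_contra h
  obtain ⟨p, hp, h0⟩ := Submodule.exists_mem_ne_zero_of_ne_bot h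
  have h1 := sub_top (LinearMap.ker (phi q)) (fun g p hp => by
    rw [LinearMap.mem_ker] at hp ⊢
    rw [phi_itw, hp, map_zero]) hp h0
  have h2 : phi q (mon _ 0) = 0 := LinearMap.mem_ker.1 (h1 ▸ Submodule.mem_top)
  rw [phi_mon, smul_eq_zero_iff_right (inv_ne_zero (ch_ne _ 0))] at h2
  have h3 := congrFun (repr_wv (q + 1) ((0 : Fin (2 * q + 1)) + 1)) (0, 1)
  rw [h2] at h3
  simp [wVec, wAmp] at h3
  exact absurd (Real.sqrt_eq_zero'.1 (by exact_mod_cast h3.symm)) (not_le.2 (by positivity))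

theorem repr2_dg (Q : ℕ) (z : ℂ) (h : conj z * z = 1) (x : U Q ⊗[ℂ] U Q) (a b : Fin (Q + 1)) :
    (b2 Q).repr ((rep Q).tprod (rep Q) (dg z h) x) (a, b) =
      z ^ (Q - a + (Q - b)) * conj z ^ ((a : ℕ) + b) * (b2 Q).repr x (a, b) := by
  induction x using TensorProduct.induction_on with
  | zero => simp
  | tmul p p' =>
    rw [Representation.tprod_apply, TensorProduct.map_tmul, b2_tmul, b2_tmul, repr_dg, repr_dg,
      pow_add, pow_add]
    ring
  | add x y hx hy => simp only [map_add, Finsupp.add_apply, hx, hy, mul_add]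

variable {q : ℕ} {ψ : U (2 * q) →ₗ[ℂ] U (q + 1) ⊗[ℂ] U (q + 1)}

theorem Itw.wt (h : Itw ψ) (k : Fin (2 * q + 1)) (a b : Fin (q + 2)) (hk : (a : ℕ) + b ≠ k + 1) :
    (b2 (q + 1)).repr (ψ (be _ k)) (a, b) = 0 := by
  by_contra h0
  obtain ⟨z, hz, hs⟩ := exists_gen (4 * q + 4)
  have h1 := congrArg (fun x => (b2 (q + 1)).repr x (a, b)) (h (dg z hz) (be _ k))
  simp only [rep_dg, map_smul, Finsupp.smul_apply, repr2_dg, smul_eq_mul] at h1
  have := hs _ _ _ _ (by omega) (by omega) (mul_right_cancel₀ h0 h1)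
  omega

theorem Itw.top (h : Itw ψ) (p : U (2 * q)) : (b2 (q + 1)).repr (ψ p) (0, 0) = 0 := by
  rw [← (be _).sum_repr p]
  simp only [map_sum, map_smul, Finsupp.coe_finset_sum, Finset.sum_apply, Finsupp.smul_apply]
  exact Finset.sum_eq_zero fun k _ => by rw [h.wt k 0 0 (by simp), smul_zero]

theorem Itw.hw (h : Itw ψ) : ∃ x : ℂ, ψ (mon _ 0) =
    x • (be (q + 1) 0 ⊗ₜ be (q + 1) 1 - be (q + 1) 1 ⊗ₜ be (q + 1) 0) := by
  set x := (b2 (q + 1)).repr (ψ (mon _ 0)) (0, 1)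
  set y := (b2 (q + 1)).repr (ψ (mon _ 0)) (1, 0)
  have e : ψ (mon _ 0) = x • be (q + 1) 0 ⊗ₜ be (q + 1) 1 + y • be (q + 1) 1 ⊗ₜ be (q + 1) 0 := by
    refine (b2 (q + 1)).ext_elem fun ⟨a, b⟩ => ?_
    simp only [map_add, map_smul, Finsupp.add_apply, Finsupp.smul_apply, b2_tmul, Basis.repr_self,
      Finsupp.single_apply, smul_eq_mul]
    by_cases h1 : a = 0 ∧ b = 1
    · simp [h1.1, h1.2, x]
    by_cases h2 : a = 1 ∧ b = 0
    · simp [h2.1, h2.2, y]
    rw [← be_zero, h.wt 0 a b]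
    · simp only [not_and, eq_comm (a := a), eq_comm (a := b)] at h1 h2
      split_ifs <;> simp_all
    · intro e
      simp only [Fin.ext_iff, Fin.val_zero, Fin.val_one] at h1 h2 e
      omega
  obtain ⟨g, g0, g1⟩ : ∃ g : SU2, g.1 0 0 ≠ 0 ∧ g.1 0 1 ≠ 0 :=
    ⟨su (3 / 5) (4 / 5) (by simp only [map_div₀, map_ofNat]; norm_num), by simp [su], by simp [su]⟩
  have r0 : (be (q + 1)).repr (rep _ g (be _ 0)) 0 ≠ 0 := by
    rw [be_zero, ← pw_one_zero, rep_pw, pw_be]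
    simp [g0]
  have r1 : (be (q + 1)).repr (rep _ g (be _ 1)) 0 ≠ 0 := by
    have hq : (q : ℂ) + 1 ≠ 0 := by exact_mod_cast Nat.succ_ne_zero q
    have e1 : mon (q + 1) 1 = xp q 1 1 0 := Subtype.ext (by simp [mon, xp, pw, mul_comm])
    have u := repr_up q (g.1 0 0 * 1 + g.1 0 1 * 0) (g.1 1 0 * 1 + g.1 1 1 * 0) 0
    have d := repr_dn q (g.1 0 0 * 1 + g.1 0 1 * 0) (g.1 1 0 * 1 + g.1 1 1 * 0) 0
    rw [be_apply, map_smul, e1, rep_xp]
    simp only [map_smul, map_add, Finsupp.smul_apply, Finsupp.add_apply, smul_eq_mul]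
    simp only [Fin.val_zero, sq_zero, Nat.cast_zero, zero_mul, mul_zero, sub_zero, one_mul,
      pow_zero, mul_one, add_zero, Nat.sub_zero] at u d ⊢
    rw [mul_left_cancel₀ hq u, (mul_eq_zero.1 d).resolve_left hq, mul_zero, add_zero]
    exact mul_ne_zero (sq_ne (q + 1) 1) (mul_ne_zero g1 (pow_ne_zero _ g0))
  have h1 := h.top (rep _ g (mon _ 0))
  rw [h, e] at h1
  simp only [map_add, map_smul, Representation.tprod_apply, TensorProduct.map_tmul,
    Finsupp.add_apply, Finsupp.smul_apply, b2_tmul, smul_eq_mul] at h1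
  have h2 : y = -x := mul_right_cancel₀ (mul_ne_zero r0 r1) (by linear_combination h1)
  exact ⟨x, by rw [e, h2, smul_sub, neg_smul, sub_eq_add_neg]⟩

theorem Itw.range (h : Itw ψ) (hi : Function.Injective ψ) :
    LinearMap.range ψ = LinearMap.range (phi q) := by
  obtain ⟨x, hx⟩ := h.hw
  obtain ⟨y, hy⟩ := (phi_itw q).hw
  have m : mon (2 * q) 0 ≠ 0 := be_zero (2 * q) ▸ (be _).ne_zero 0
  have x0 : x ≠ 0 := fun e => m (hi (by rw [hx, e, zero_smul, map_zero]))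
  have y0 : y ≠ 0 := fun e => m (phi_inj q (by rw [hy, e, zero_smul, map_zero]))
  have e : ψ = (x / y) • phi q := orb_ext fun g => by
    rw [LinearMap.smul_apply, h, phi_itw, hx, hy, map_smul, map_smul, smul_smul,
      div_mul_cancel₀ _ y0]
  rw [e, LinearMap.range_smul _ _ (div_ne_zero x0 y0)]

end Vale.Agent.P359W29

end
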