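import Vale.Agent.P359W29.C
import Mathlib.LinearAlgebra.PiTensorProduct.Basis
import Mathlib.LinearAlgebra.TensorProduct.Finiteness

/-!
P359W29, part D: the pair projection and the tensor power in coordinates.
-/

set_option linter.all false
set_option maxSynthPendingDepth 3

noncomputable section

namespace Vale.Agent.P359W29

open MvPolynomial Module Matrix
open Vale.Agent.P359
open PiTensorProduct (tprod)
open scoped TensorProduct ComplexConjugate

theorem mem_phi (q : ℕ) (x : U (q + 1) ⊗[ℂ] U (q + 1)) : x ∈ LinearMap.range (phi q) ↔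
    casimir (q + 1) *ᵥ (b2 _).repr x =
      ((((q + 1 : ℕ) : ℂ) - 1) * (q + 1 : ℕ)) • ⇑((b2 _).repr x) := by
  have hw : ∀ k : Fin (2 * q + 1), wv (q + 1) (k + 1) ∈ LinearMap.range (phi q) := fun k =>
    ⟨(Nat.choose (2 * q) k : ℂ) • mon _ k, by
      rw [map_smul, phi_mon, smul_smul, mul_inv_cancel₀ (ch_ne _ k), one_smul]⟩
  constructor
  · rintro ⟨p, rfl⟩
    rw [← (bm _).sum_repr p]
    simp only [map_sum, map_smul, bm_apply, phi_mon, Finsupp.coe_finset_sum, Finsupp.coe_smul,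
      repr_wv, Matrix.mulVec_sum, Matrix.mulVec_smul, casimir_eq, spinSq_wVec, Finset.smul_sum,
      smul_smul]
    exact Finset.sum_congr rfl fun k _ => by congr 1; ring
  · intro h
    have h1 := spinComponent_le_span (q + 1) (by omega)
      ((mem_spinComponent (q + 1) (WithLp.toLp 2 ((b2 _).repr x))).2 h)
    have h2 : ∀ v ∈ Submodule.span ℂ (Set.range fun s : Fin (2 * (q + 1) - 1) => betaVec (q + 1) s),
        (b2 (q + 1)).equivFun.symm v.ofLp ∈ LinearMap.range (phi q) := by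
      intro v hv
      induction hv using Submodule.span_induction with
      | mem v hv =>
        obtain ⟨s, rfl⟩ := hv
        simp only [betaVec_eq_smul, WithLp.ofLp_smul, map_smul]
        exact Submodule.smul_mem _ _ (hw ⟨s, by omega⟩)
      | zero => simp
      | add u v _ _ hu hv => rw [WithLp.ofLp_add, map_add]; exact add_mem hu hv
      | smul c v _ hv => rw [WithLp.ofLp_smul, map_smul]; exact Submodule.smul_mem _ _ hv
    have h3 : (b2 (q + 1)).equivFun.symm ((b2 (q + 1)).equivFun x) ∈ _ := h2 _ h1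
    rwa [LinearEquiv.symm_apply_apply] at h3

variable {N Q : ℕ}

/-- matrices on `U_Q ⊗ U_Q` -/
abbrev Mat (Q : ℕ) := Matrix (Fin (Q + 1) × Fin (Q + 1)) (Fin (Q + 1) × Fin (Q + 1)) ℂ

/-- the operator of a matrix -/
def opP (P : Mat Q) : U Q ⊗[ℂ] U Q →ₗ[ℂ] U Q ⊗[ℂ] U Q := Matrix.toLin (b2 Q) (b2 Q) P

theorem repr_opP (P : Mat Q) (x : U Q ⊗[ℂ] U Q) :
    ⇑((b2 Q).repr (opP P x)) = P *ᵥ (b2 Q).repr x := by
  rw [opP, Matrix.toLin_apply]
  exact (b2 Q).repr_sum_self _

theorem braket_sub {ι : Type} [Fintype ι] (x y z : ι → ℂ) :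
    braket x (y - z) = braket x y - braket x z := by
  simp [braket, mul_sub]

theorem orth_opP {q : ℕ} {P : Mat (q + 1)} (hP : IsPairProj (q + 1) P)
    (B : InnerProductSpace.Core ℂ (U (q + 1) ⊗[ℂ] U (q + 1))) {c : ℂ}
    (hB : ∀ x y, ses B x y = c * braket ((b2 _).repr x) ((b2 _).repr y)) :
    IsOrthProj B (LinearMap.range (phi q)) (opP P) := fun x => by
  refine ⟨(mem_phi q _).2 ((hP.2.2 _).1 ?_), fun w hw => ?_⟩
  · rw [repr_opP, Matrix.mulVec_mulVec, hP.1]
  · rw [ses_apply, hB, map_sub, Finsupp.coe_sub, repr_opP, braket_sub, braket_mulVec, hP.2.1,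
      (hP.2.2 _).2 ((mem_phi q w).1 hw), sub_self, mul_zero]

/-- the basis of the tensor power -/
def bN (N Q : ℕ) : Basis (Fin N → Fin (Q + 1)) ℂ (⨂[ℂ]^N (U Q)) :=
  Basis.piTensorProduct fun _ => be Q

theorem bN_tprod (f : Fin N → U Q) (x : Fin N → Fin (Q + 1)) :
    (bN N Q).repr (tprod ℂ f) x = ∏ i, (be Q).repr (f i) (x i) :=
  Basis.piTensorProduct_repr_tprod_apply _ f x

theorem bN_apply (x : Fin N → Fin (Q + 1)) : bN N Q x = tprod ℂ fun i => be Q (x i) :=
  Basis.piTensorProduct_apply _ x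

theorem tens_ext {V : Type} [AddCommMonoid V] [Module ℂ V] {F G : ⨂[ℂ]^N (U Q) →ₗ[ℂ] V}
    (h : ∀ f, F (tprod ℂ f) = G (tprod ℂ f)) : F = G :=
  (bN N Q).ext fun x => by rw [bN_apply, h]

theorem prod_two {i j : Fin N} (h : i ≠ j) (G : Fin N → ℂ) :
    ∏ k, G k = G i * G j * ∏ k ∈ (Finset.univ.erase i).erase j, G k := by
  rw [mul_assoc, Finset.mul_prod_erase _ _ (Finset.mem_erase.2 ⟨h.symm, Finset.mem_univ j⟩),
    Finset.mul_prod_erase _ _ (Finset.mem_univ i)]

theorem prod_upd {α : Type} {i j : Fin N} (h : i ≠ j) (F : Fin N → α → ℂ) (y : Fin N → α)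
    (c d : α) : ∏ k, F k (Function.update (Function.update y i c) j d k) =
      F i c * F j d * ∏ k ∈ (Finset.univ.erase i).erase j, F k (y k) := by
  rw [prod_two h, Function.update_of_ne h, Function.update_self, Function.update_self]
  congr 1
  refine Finset.prod_congr rfl fun k hk => ?_
  simp only [Finset.mem_erase] at hk
  rw [Function.update_of_ne hk.1, Function.update_of_ne hk.2.1]

/-- a matrix acting on two coordinates -/
def actC (P : Mat Q) (i j : Fin N) :
    ((Fin N → Fin (Q + 1)) → ℂ) →ₗ[ℂ] (Fin N → Fin (Q + 1)) → ℂ where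
  toFun Ψ x := ∑ a, ∑ b, P (x i, x j) (a, b) * Ψ (Function.update (Function.update x i a) j b)
  map_add' Ψ Φ := funext fun x => by simp [mul_add, Finset.sum_add_distrib]
  map_smul' c Ψ := funext fun x => by simp [Finset.mul_sum, mul_left_comm]

/-- a matrix acting on two tensor factors -/
def opT (P : Mat Q) (i j : Fin N) : ⨂[ℂ]^N (U Q) →ₗ[ℂ] ⨂[ℂ]^N (U Q) :=
  (bN N Q).equivFun.symm.toLinearMap ∘ₗ actC P i j ∘ₗ (bN N Q).equivFun.toLinearMap

theorem repr_opT (P : Mat Q) (i j : Fin N) (Ψ : ⨂[ℂ]^N (U Q)) :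
    ⇑((bN N Q).repr (opT P i j Ψ)) = actC P i j ((bN N Q).repr Ψ) :=
  (bN N Q).equivFun.apply_symm_apply _

theorem on_opT (P : Mat Q) {i j : Fin N} (h : i ≠ j) : OnFactors (opP P) i j (opT P i j) := by
  intro f s hs
  refine (bN N Q).ext_elem fun y => ?_
  have h1 := congrArg (fun x => (b2 Q).repr x (y i, y j)) hs
  simp only [repr_opP, map_sum, Finsupp.coe_finset_sum, Finset.sum_apply, b2_tmul, Matrix.mulVec,
    dotProduct, Fintype.sum_prod_type] at h1
  rw [repr_opT]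
  simp only [actC, LinearMap.coe_mk, AddHom.coe_mk, map_sum, Finsupp.coe_finset_sum,
    Finset.sum_apply, bN_tprod]
  simp only [prod_upd h (fun k a => (be Q).repr (f k) a),
    prod_upd h (fun k (p : U Q) => (be Q).repr p (y k)), ← Finset.sum_mul, ← h1, ← mul_assoc]

theorem OnFactors.unique {P : U Q ⊗[ℂ] U Q →ₗ[ℂ] U Q ⊗[ℂ] U Q} {i j : Fin N}
    {T T' : ⨂[ℂ]^N (U Q) →ₗ[ℂ] ⨂[ℂ]^N (U Q)} (h : OnFactors P i j T) (h' : OnFactors P i j T') :
    T = T' := tens_ext fun f => by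
  obtain ⟨s, hs⟩ := TensorProduct.exists_finset (P (f i ⊗ₜ f j))
  rw [h f s hs, h' f s hs]

theorem repr_sumT (P : Mat Q) (Ψ : ⨂[ℂ]^N (U Q)) :
    ⇑((bN N Q).repr ((∑ i, ∑ j ∈ Finset.Ioi i, opT P i j) Ψ)) = pairSum P ((bN N Q).repr Ψ) := by
  funext x
  simp only [LinearMap.sum_apply, map_sum, Finsupp.coe_finset_sum, Finset.sum_apply, repr_opT]
  rfl

/-- permutations of the factors -/
def perm (σ : Equiv.Perm (Fin N)) : ⨂[ℂ]^N (U Q) →ₗ[ℂ] ⨂[ℂ]^N (U Q) :=
  (PiTensorProduct.reindex ℂ (fun _ => U Q) σ.symm).toLinearMap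

theorem perm_tprod (σ : Equiv.Perm (Fin N)) (f : Fin N → U Q) :
    perm σ (tprod ℂ f) = tprod ℂ fun i => f (σ i) :=
  PiTensorProduct.reindex_tprod σ.symm f

theorem repr_perm (σ : Equiv.Perm (Fin N)) (Ψ : ⨂[ℂ]^N (U Q)) (x : Fin N → Fin (Q + 1)) :
    (bN N Q).repr (perm σ Ψ) x = (bN N Q).repr Ψ (x ∘ σ.symm) := by
  have h : (bN N Q).coord x ∘ₗ perm σ = (bN N Q).coord (x ∘ σ.symm) := tens_ext fun f => by
    simp only [LinearMap.comp_apply, perm_tprod, Basis.coord_apply, bN_tprod, Function.comp_apply]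
    exact Fintype.prod_equiv σ _ _ fun i => by simp
  exact LinearMap.congr_fun h Ψ

/-- the projection of the tensor power onto the exterior power -/
def wedge (N Q : ℕ) : ⨂[ℂ]^N (U Q) →ₗ[ℂ] ⋀[ℂ]^N (U Q) :=
  PiTensorProduct.lift (exteriorPower.ιMulti ℂ N).toMultilinearMap

theorem wedge_tprod (f : Fin N → U Q) : wedge N Q (tprod ℂ f) = exteriorPower.ιMulti ℂ N f :=
  PiTensorProduct.lift.tprod f

theorem sg_sq (σ : Equiv.Perm (Fin N)) :
    ((Equiv.Perm.sign σ : ℤ) : ℂ) * ((Equiv.Perm.sign σ : ℤ) : ℂ) = 1 := by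
  rcases Int.units_eq_one_or (Equiv.Perm.sign σ) with h | h <;> simp [h]

theorem usmul {V : Type} [AddCommGroup V] [Module ℂ V] (u : ℤˣ) (v : V) :
    u • v = ((u : ℤ) : ℂ) • v := by
  rw [Units.smul_def, Int.cast_smul_eq_zsmul]

theorem iota_wedge (Ψ : ⨂[ℂ]^N (U Q)) : exteriorPower.toTensorPower ℂ (U Q) N (wedge N Q Ψ) =
    ∑ σ : Equiv.Perm (Fin N), ((Equiv.Perm.sign σ : ℤ) : ℂ) • perm σ Ψ := by
  have h : exteriorPower.toTensorPower ℂ (U Q) N ∘ₗ wedge N Q =
      ∑ σ : Equiv.Perm (Fin N), ((Equiv.Perm.sign σ : ℤ) : ℂ) • perm σ := tens_ext fun f => by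
    simp only [LinearMap.comp_apply, wedge_tprod, exteriorPower.toTensorPower_apply_ιMulti,
      LinearMap.sum_apply, LinearMap.smul_apply, perm_tprod, usmul]
  simpa only [LinearMap.comp_apply, LinearMap.sum_apply, LinearMap.smul_apply] using
    LinearMap.congr_fun h Ψ

theorem wedge_iota (ω : ⋀[ℂ]^N (U Q)) :
    wedge N Q (exteriorPower.toTensorPower ℂ (U Q) N ω) = (N.factorial : ℂ) • ω := by
  have h : wedge N Q ∘ₗ exteriorPower.toTensorPower ℂ (U Q) N = (N.factorial : ℂ) • LinearMap.id :=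
    exteriorPower.linearMap_ext (AlternatingMap.ext fun f => by
      have e : ∀ σ : Equiv.Perm (Fin N), wedge N Q (Equiv.Perm.sign σ • tprod ℂ fun i => f (σ i)) =
          exteriorPower.ιMulti ℂ N f := fun σ => by
        rw [usmul, map_smul, wedge_tprod]
        erw [AlternatingMap.map_perm]
        rw [usmul, smul_smul, sg_sq, one_smul]
      simp only [LinearMap.compAlternatingMap_apply, LinearMap.comp_apply,
        exteriorPower.toTensorPower_apply_ιMulti, map_sum, e, Finset.sum_const, Finset.card_univ,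
        Fintype.card_perm, Fintype.card_fin, LinearMap.smul_apply, LinearMap.id_apply,
        Nat.cast_smul_eq_nsmul])
  exact LinearMap.congr_fun h ω

theorem fac_ne (N : ℕ) : (N.factorial : ℂ) ≠ 0 := by exact_mod_cast N.factorial_ne_zero

theorem iota_inj (N Q : ℕ) : Function.Injective (exteriorPower.toTensorPower ℂ (U Q) N) :=
  fun x y h => smul_right_injective _ (fac_ne N) (by
    show (N.factorial : ℂ) • x = (N.factorial : ℂ) • y
    rw [← wedge_iota, h, wedge_iota])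

theorem mem_fermi (Ψ : ⨂[ℂ]^N (U Q)) : Ψ ∈ fermi N (U Q) ↔ IsFermionic ((bN N Q).repr Ψ) := by
  have key : ∀ (Φ : ⨂[ℂ]^N (U Q)) x,
      (bN N Q).repr (exteriorPower.toTensorPower ℂ (U Q) N (wedge N Q Φ)) x =
        ∑ σ : Equiv.Perm (Fin N), ((Equiv.Perm.sign σ : ℤ) : ℂ) * (bN N Q).repr Φ (x ∘ σ.symm) := by
    intro Φ x
    simp only [iota_wedge, map_sum, map_smul, Finsupp.coe_finset_sum, Finset.sum_apply,
      Finsupp.smul_apply, repr_perm, smul_eq_mul]
  constructor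
  · rintro ⟨ω, rfl⟩ τ x
    have e : ω = wedge N Q ((N.factorial : ℂ)⁻¹ • exteriorPower.toTensorPower ℂ (U Q) N ω) := by
      rw [map_smul, wedge_iota, smul_smul, inv_mul_cancel₀ (fac_ne N), one_smul]
    rw [e, key, key, Finset.mul_sum]
    refine Fintype.sum_equiv (Equiv.mulRight τ⁻¹) _ _ fun σ => ?_
    simp only [Equiv.coe_mulRight, Equiv.Perm.sign_mul, Equiv.Perm.sign_inv, Units.val_mul,
      Int.cast_mul]
    rw [← mul_assoc, mul_left_comm, sg_sq, mul_one]
    rfl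
  · intro h
    refine ⟨wedge N Q ((N.factorial : ℂ)⁻¹ • Ψ), (bN N Q).ext_elem fun x => ?_⟩
    simp only [key, map_smul, Finsupp.smul_apply, h _ x, smul_eq_mul, Equiv.Perm.sign_symm]
    simp only [← mul_assoc, sg_sq, one_mul, Finset.sum_const, Finset.card_univ, Fintype.card_perm,
      Fintype.card_fin, nsmul_eq_mul, inv_mul_cancel₀ (fac_ne N)]

end Vale.Agent.P359W29

end
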