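import Mathlib.RepresentationTheory.Irreducible
import Mathlib.RepresentationTheory.Intertwining
import Mathlib.RingTheory.MvPolynomial.Homogeneous
import Mathlib.LinearAlgebra.UnitaryGroup
import Mathlib.LinearAlgebra.ExteriorPower.Pairing
import Mathlib.Analysis.InnerProductSpace.Defs
import Mathlib.Analysis.Complex.Basic

/-!
P359: the spherical Laughlin Hamiltonian, defined from the representations of the group `SU(2)`.
The spinor variables are `u = X 0`, `v = X 1`; for `N` particles `u_i = X (i, 0)`, `v_i = X (i, 1)`.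
-/

noncomputable section

namespace Vale.Agent.P359W29

open MvPolynomial
open scoped TensorProduct

/-- the group `SU(2)` -/
abbrev SU2 : Type := Matrix.specialUnitaryGroup (Fin 2) ℂ

/-- `U_Q`: the homogeneous polynomials of degree `Q` in `(u, v)` -/
abbrev U (Q : ℕ) : Type := homogeneousSubmodule (Fin 2) ℂ Q

/-- the linear substitution `X s ↦ ∑ t, g t s • X t` of the variables -/
def subst (g : Matrix (Fin 2) (Fin 2) ℂ) :
    MvPolynomial (Fin 2) ℂ →ₐ[ℂ] MvPolynomial (Fin 2) ℂ :=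
  aeval fun s => ∑ t, g t s • X t

theorem subst_mem {Q : ℕ} (g : Matrix (Fin 2) (Fin 2) ℂ) (p : MvPolynomial (Fin 2) ℂ)
    (hp : p ∈ homogeneousSubmodule (Fin 2) ℂ Q) : subst g p ∈ homogeneousSubmodule (Fin 2) ℂ Q := by
  have h := IsHomogeneous.aeval hp (fun s => ∑ t, g t s • (X t : MvPolynomial (Fin 2) ℂ)) (n := 1)
    fun s => (homogeneousSubmodule (Fin 2) ℂ 1).sum_mem fun t _ =>
      (homogeneousSubmodule (Fin 2) ℂ 1).smul_mem _ (isHomogeneous_X ℂ t)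
  rwa [one_mul] at h

theorem subst_one : subst 1 = AlgHom.id ℂ _ :=
  algHom_ext fun s => by fin_cases s <;> simp [subst, Matrix.one_apply]

theorem subst_mul (g h : Matrix (Fin 2) (Fin 2) ℂ) : subst (g * h) = (subst g).comp (subst h) :=
  algHom_ext fun s => by
    simp only [subst, aeval_X, AlgHom.comp_apply, map_add, map_smul, Matrix.mul_apply,
      Fin.sum_univ_two]
    module

/-- the representation of `SU(2)` on `U_Q` (spin `Q / 2`): `g` substitutes the variables -/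
def rep (Q : ℕ) : Representation ℂ SU2 (U Q) where
  toFun g := (subst g.1).toLinearMap.restrict (subst_mem g.1)
  map_one' := LinearMap.ext fun p => Subtype.ext (congrArg (fun f => f p.1) subst_one)
  map_mul' g h := LinearMap.ext fun p => Subtype.ext (congrArg (fun f => f p.1) (subst_mul g.1 h.1))

section general

variable {V V' A : Type} [AddCommGroup V] [Module ℂ V] [AddCommGroup V'] [Module ℂ V']
  [CommRing A] [Algebra ℂ A] {N : ℕ}

/-- `P` is the orthogonal projection onto `W` for the inner product `B` -/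
def IsOrthProj (B : InnerProductSpace.Core ℂ V) (W : Submodule ℂ V) (P : V →ₗ[ℂ] V) : Prop :=
  ∀ x, P x ∈ W ∧ ∀ w ∈ W, B.inner w (x - P x) = 0

/-- `T` is the operator `P` acting on the tensor factors `i` and `j` of `V ⊗ ⋯ ⊗ V`:
if `P (f_i ⊗ f_j) = ∑ p ⊗ q`, then `T (f_1 ⊗ ⋯ ⊗ f_N)` is the sum of the tensors
`f_1 ⊗ ⋯ ⊗ f_N` with `f_i` replaced by `p` and `f_j` replaced by `q` -/
def OnFactors (P : V ⊗[ℂ] V →ₗ[ℂ] V ⊗[ℂ] V) (i j : Fin N) (T : ⨂[ℂ]^N V →ₗ[ℂ] ⨂[ℂ]^N V) : Prop :=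
  ∀ (f : Fin N → V) (s : Finset (V × V)), P (f i ⊗ₜ f j) = ∑ r ∈ s, r.1 ⊗ₜ r.2 →
    T (PiTensorProduct.tprod ℂ f) =
      ∑ r ∈ s, PiTensorProduct.tprod ℂ (Function.update (Function.update f i r.1) j r.2)

/-- the objects that enter the definition of the Hamiltonian, for the one-particle representation
`ρ` and the component `σ` of `ρ ⊗ ρ` -/
structure Data (N : ℕ) (ρ : Representation ℂ SU2 V) (σ : Representation ℂ SU2 V') where
  /-- an `SU(2)`-invariant inner product -/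
  B : InnerProductSpace.Core ℂ V
  B_inv : ∀ g p q, B.inner (ρ g p) (ρ g q) = B.inner p q
  /-- the product inner product on `V ⊗ V` -/
  B₂ : InnerProductSpace.Core ℂ (V ⊗[ℂ] V)
  B₂_tmul : ∀ p q p' q', B₂.inner (p ⊗ₜ q) (p' ⊗ₜ q') = B.inner p p' * B.inner q q'
  /-- the product inner product on the `N`-th tensor power -/
  BN : InnerProductSpace.Core ℂ (⨂[ℂ]^N V)
  BN_tprod : ∀ f f' : Fin N → V,
    BN.inner (PiTensorProduct.tprod ℂ f) (PiTensorProduct.tprod ℂ f') = ∏ i, B.inner (f i) (f' i)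
  /-- a subrepresentation of `ρ ⊗ ρ` equivalent to `σ` -/
  W : Subrepresentation (ρ.tprod ρ)
  W_spin : Nonempty (W.toRepresentation.Equiv σ)
  /-- the orthogonal projection onto it -/
  P : V ⊗[ℂ] V →ₗ[ℂ] V ⊗[ℂ] V
  P_proj : IsOrthProj B₂ W.toSubmodule P
  /-- the projection acting on the factors `i`, `j` -/
  T : Fin N → Fin N → ⨂[ℂ]^N V →ₗ[ℂ] ⨂[ℂ]^N V
  T_on : ∀ i j, i < j → OnFactors P i j (T i j)

variable {ρ : Representation ℂ SU2 V} {σ : Representation ℂ SU2 V'}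

/-- `H = ∑_{i<j} P_{ij}` -/
def Data.H (M : Data N ρ σ) : ⨂[ℂ]^N V →ₗ[ℂ] ⨂[ℂ]^N V := ∑ i, ∑ j ∈ Finset.Ioi i, M.T i j

/-- the fermionic space: `⋀^N V` inside the tensor power, by antisymmetrization -/
def fermi (N : ℕ) (V : Type) [AddCommGroup V] [Module ℂ V] : Submodule ℂ (⨂[ℂ]^N V) :=
  LinearMap.range (exteriorPower.toTensorPower ℂ V N)

/-- antisymmetrization `⋀^N V → V ⊗ ⋯ ⊗ V` is injective -/
def AntiInj (N : ℕ) (V : Type) [AddCommGroup V] [Module ℂ V] : Prop :=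
  Function.Injective (exteriorPower.toTensorPower ℂ V N)

/-- `f_1 ⊗ ⋯ ⊗ f_N ↦ ∏ i, φ i (f_i)` -/
def mulMap (φ : Fin N → V →ₗ[ℂ] A) : ⨂[ℂ]^N V →ₗ[ℂ] A :=
  PiTensorProduct.lift ((MultilinearMap.mkPiAlgebra ℂ (Fin N) A).compLinearMap φ)

/-- the component and `H` are unique, the invariant inner product is unique up to a positive
factor, and `H` preserves the fermionic space -/
def WellDefined (N : ℕ) (ρ : Representation ℂ SU2 V) (σ : Representation ℂ SU2 V') : Prop :=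
  ∀ M M' : Data N ρ σ, M.W = M'.W ∧ M.H = M'.H ∧
    (∃ c : ℝ, 0 < c ∧ ∀ p q, M'.B.inner p q = c * M.B.inner p q) ∧
    ∀ Ψ ∈ fermi N V, M.H Ψ ∈ fermi N V

/-- `Ψ_L` is a nonzero fermionic vector that spans the kernel of `H` on the fermionic space -/
def Data.SpansKer (M : Data N ρ σ) (ΨL : ⨂[ℂ]^N V) : Prop :=
  ΨL ∈ fermi N V ∧ ΨL ≠ 0 ∧ ∀ Ψ ∈ fermi N V, M.H Ψ = 0 ↔ Ψ ∈ ℂ ∙ ΨL

/-- `H ≥ δ (I - P_L)` on `⋀^N V`, `P_L` the orthogonal projection onto the span of `Ψ_L` -/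
def Data.Gap (M : Data N ρ σ) (ΨL : ⨂[ℂ]^N V) (δ : ℝ) : Prop :=
  ∃ PL, IsOrthProj M.BN (ℂ ∙ ΨL) PL ∧
    ∀ Ψ ∈ fermi N V, δ * (M.BN.inner Ψ (Ψ - PL Ψ)).re ≤ (M.BN.inner Ψ (M.H Ψ)).re

/-- `E 0 ≤ E 1 ≤ ⋯` are the eigenvalues of `H` on `⋀^N V`, counted with multiplicity: they belong
to a basis of eigenvectors -/
def Data.IsLevels {D : ℕ} (M : Data N ρ σ) (E : Fin D → ℝ) : Prop :=
  Monotone E ∧ ∃ b : Module.Basis (Fin D) ℂ (fermi N V), ∀ k, M.H (b k) = (E k : ℂ) • (b k).1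

/-- the list of the eigenvalues exists and has at least two entries, `E_0 = 0` and
`Δ = E_1 - E_0 ≥ δ` -/
def Data.LevelGap (M : Data N ρ σ) (δ : ℝ) : Prop :=
  (∃ (D : ℕ) (E : Fin (D + 2) → ℝ), M.IsLevels E) ∧
    ∀ (D : ℕ) (E : Fin (D + 2) → ℝ), M.IsLevels E → E 0 = 0 ∧ δ ≤ E 1 - E 0

end general

/-- the objects that define `H_{N,Q}`: one-particle space `U_Q`, component of spin `Q - 1` -/
abbrev Model (N Q : ℕ) : Type := Data N (rep Q) (rep (2 * (Q - 1)))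

/-- polynomials in the variables `u_i`, `v_i` -/
abbrev Pol (N : ℕ) : Type := MvPolynomial (Fin N × Fin 2) ℂ

/-- `p ↦ p (u_i, v_i)` -/
def leg {N : ℕ} (Q : ℕ) (i : Fin N) : U Q →ₗ[ℂ] Pol N :=
  (rename (Prod.mk i)).toLinearMap ∘ₗ (homogeneousSubmodule (Fin 2) ℂ Q).subtype

/-- tensors as polynomials: `f_1 ⊗ ⋯ ⊗ f_N ↦ ∏ i, f_i (u_i, v_i)` -/
def toPoly (N Q : ℕ) (Ψ : ⨂[ℂ]^N (U Q)) : Pol N := mulMap (leg Q) Ψ

/-- `∏_{i<j} (u_i v_j - u_j v_i)^3` -/
def laughlinPol (N : ℕ) : Pol N :=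
  ∏ i : Fin N, ∏ j ∈ Finset.Ioi i, (X (i, 0) * X (j, 1) - X (j, 0) * X (i, 1)) ^ 3

end Vale.Agent.P359W29

end
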