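import Vale.Agent.P359W29.D
import Vale.Agent.P359.H737.Main

/-!
P359W29, part E: the Laughlin vector, the models in coordinates.
-/

set_option linter.all false
set_option maxSynthPendingDepth 3

noncomputable section

namespace Vale.Agent.P359W29

open MvPolynomial Module Matrix
open Vale.Agent.P359
open PiTensorProduct (tprod)
open scoped TensorProduct ComplexConjugate

variable {N Q : ℕ}

/-- the exponent of `∏ i, u_i^(Q - x i) v_i^(x i)` -/
def exN (x : Fin N → Fin (Q + 1)) : Fin N × Fin 2 →₀ ℕ :=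
  Finsupp.equivFunOnFinite.symm fun p => ex Q (x p.1) p.2

theorem exN_apply (x : Fin N → Fin (Q + 1)) (i : Fin N) (s : Fin 2) :
    exN x (i, s) = ex Q (x i) s := rfl

theorem exN_inj {x y : Fin N → Fin (Q + 1)} (h : exN x = exN y) : x = y :=
  funext fun i => Fin.ext (by simpa [exN_apply] using congrArg (fun d => d (i, 1)) h)

theorem toPoly_tprod (f : Fin N → U Q) :
    toPoly N Q (tprod ℂ f) = ∏ i, rename (Prod.mk i) (f i).1 := by
  simp [toPoly, mulMap, leg]

theorem toPoly_bN (x : Fin N → Fin (Q + 1)) :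
    toPoly N Q (bN N Q x) = monomial (exN x) (∏ i, sq Q (x i)) := by
  rw [bN_apply, toPoly_tprod, monomial_eq, Finsupp.prod_fintype _ _ (fun _ => pow_zero _),
    Fintype.prod_prod_type, map_prod, ← Finset.prod_mul_distrib]
  refine Finset.prod_congr rfl fun i _ => ?_
  simp [be_apply, mon, exN_apply, smul_eq_C_mul]

theorem toPoly_eq (Ψ : ⨂[ℂ]^N (U Q)) :
    toPoly N Q Ψ = ∑ x, monomial (exN x) ((bN N Q).repr Ψ x * ∏ i, sq Q (x i)) := by
  conv_lhs => rw [← (bN N Q).sum_repr Ψ, toPoly]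
  have e : ∀ x, mulMap (leg Q) (bN N Q x) = _ := toPoly_bN
  simp only [map_sum, map_smul, e, smul_monomial, smul_eq_mul]

theorem coeff_toPoly (Ψ : ⨂[ℂ]^N (U Q)) (x : Fin N → Fin (Q + 1)) :
    coeff (exN x) (toPoly N Q Ψ) = (bN N Q).repr Ψ x * ∏ i, sq Q (x i) := by
  rw [toPoly_eq, coeff_sum, Finset.sum_eq_single x]
  · simp
  · exact fun y _ h => by rw [coeff_monomial, if_neg fun e => h (exN_inj e)]
  · simp

theorem psq_ne (x : Fin N → Fin (Q + 1)) : ∏ i, sq Q (x i) ≠ 0 :=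
  Finset.prod_ne_zero_iff.2 fun i _ => sq_ne Q (x i)

theorem toPoly_inj (N Q : ℕ) : Function.Injective (toPoly N Q) := fun Ψ Φ h =>
  (bN N Q).ext_elem fun x => mul_right_cancel₀ (psq_ne x) (by rw [← coeff_toPoly, h, coeff_toPoly])

/-- the two ways of naming the variables -/
def eqv (N : ℕ) : Fin N × Fin 2 ≃ Fin N × Bool := (Equiv.refl _).prodCongr finTwoEquiv

theorem ren_laughlin (N : ℕ) : rename (eqv N) (laughlinPol N) = laughlinPolynomial N := by
  simp only [laughlinPol, laughlinPolynomial, map_prod, map_pow, map_sub, map_mul, rename_X]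
  rfl

theorem coeff_ren (d : Fin N × Fin 2 →₀ ℕ) :
    coeff (d.mapDomain (eqv N)) (laughlinPolynomial N) = coeff d (laughlinPol N) := by
  rw [← ren_laughlin, coeff_rename_mapDomain _ (eqv N).injective]

theorem map_exN (x : Fin N → Fin (Q + 1)) : (exN x).mapDomain (eqv N) = spinorExp x := by
  ext ⟨i, b⟩
  rw [Finsupp.mapDomain_equiv_apply]
  cases b
  · exact ex_zero Q (x i)
  · exact ex_one Q (x i)

theorem repr_laughlin {Ψ : ⨂[ℂ]^N (U (3 * (N - 1)))} (h : toPoly N _ Ψ = laughlinPol N) :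
    ⇑((bN N _).repr Ψ) = laughlinVec N := funext fun x => by
  have h1 := coeff_toPoly Ψ x
  rw [h, ← coeff_ren, map_exN] at h1
  rw [laughlinVec, h1]
  exact (mul_div_cancel_right₀ _ (psq_ne x)).symm

theorem exists_laughlin (N : ℕ) : ∃ Ψ : ⨂[ℂ]^N (U (3 * (N - 1))), toPoly N _ Ψ = laughlinPol N := by
  refine ⟨(bN N _).equivFun.symm (laughlinVec N), ?_⟩
  have e : ⇑((bN N _).repr ((bN N _).equivFun.symm (laughlinVec N))) = laughlinVec N :=
    (bN N _).equivFun.apply_symm_apply _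
  ext d
  by_cases hd : ∃ x : Fin N → Fin (3 * (N - 1) + 1), exN x = d
  · obtain ⟨x, rfl⟩ := hd
    rw [coeff_toPoly, e, ← coeff_ren, map_exN, laughlinVec]
    exact div_mul_cancel₀ _ (psq_ne x)
  · rw [toPoly_eq, coeff_sum, Finset.sum_eq_zero fun x _ => by
      rw [coeff_monomial, if_neg fun k => hd ⟨x, k⟩]]
    by_contra h0
    have h1 : ∀ k, d (k, 0) + d (k, 1) = 3 * (N - 1) := fun k => by
      have h2 := expo_degree k (d.mapDomain (eqv N)) fun h => h0 (by rw [← coeff_ren]; exact h.symm)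
      rwa [Finsupp.mapDomain_equiv_apply, Finsupp.mapDomain_equiv_apply] at h2
    refine hd ⟨fun k => ⟨d (k, 1), by have := h1 k; omega⟩, ?_⟩
    ext ⟨k, s⟩
    have := h1 k
    fin_cases s
    · simp [exN_apply]; omega
    · simp [exN_apply]

theorem B0_be (a b : Fin (Q + 1)) : ses (B0 Q) (be Q a) (be Q b) = if a = b then 1 else 0 := by
  rw [coreOf_basis, Basis.repr_self, Finsupp.single_apply]
  exact if_congr eq_comm rfl rfl

theorem braket_tmul (p q p' q' : U Q) : braket ((b2 Q).repr (p ⊗ₜ q)) ((b2 Q).repr (p' ⊗ₜ q')) =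
    braket ((be Q).repr p) ((be Q).repr p') * braket ((be Q).repr q) ((be Q).repr q') := by
  simp only [braket, Fintype.sum_prod_type, b2_tmul, Finset.sum_mul_sum, star_mul']
  exact Finset.sum_congr rfl fun a _ => Finset.sum_congr rfl fun b _ => by ring

theorem braket_tprod (f f' : Fin N → U Q) :
    braket ((bN N Q).repr (tprod ℂ f)) ((bN N Q).repr (tprod ℂ f')) =
      ∏ i, braket ((be Q).repr (f i)) ((be Q).repr (f' i)) := by
  simp only [braket, bN_tprod, Fintype.prod_sum, star_prod, Finset.prod_mul_distrib]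

theorem model_ex (N q : ℕ) : Nonempty (Model N (q + 1)) := by
  obtain ⟨P, hP, -⟩ := unique_pairProj (q + 1)
  let W : Subrepresentation ((rep (q + 1)).tprod (rep (q + 1))) :=
    ⟨LinearMap.range (phi q), by
      rintro g _ ⟨p, rfl⟩
      exact ⟨_, phi_itw q g p⟩⟩
  have e : (rep (2 * q)).Equiv W.toRepresentation :=
    Representation.Equiv.mk (LinearEquiv.ofInjective (phi q) (phi_inj q)) fun g =>
      LinearMap.ext fun p => Subtype.ext (phi_itw q g p)
  exact ⟨⟨B0 _, B0_inv _, coreOf (b2 _), braket_tmul, coreOf (bN N _), braket_tprod, W, ⟨e.symm⟩,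
    opP P, orth_opP hP _ (c := 1) fun x y => (one_mul _).symm, opT P,
    fun i j h => on_opT P h.ne⟩⟩

namespace Data

theorem W_eq {q : ℕ} (M : Model N (q + 1)) : M.W.toSubmodule = LinearMap.range (phi q) := by
  obtain ⟨e⟩ := M.W_spin
  have e' : (rep (2 * q)).Equiv M.W.toRepresentation := e.symm
  have h : Itw (M.W.toSubmodule.subtype ∘ₗ e'.toLinearMap) := fun g p =>
    congrArg Subtype.val (LinearMap.congr_fun (e'.isIntertwining' g) p)
  rw [← h.range (Subtype.val_injective.comp e'.toLinearEquiv.injective), LinearMap.range_comp,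
    show LinearMap.range e'.toLinearMap = ⊤ from e'.toLinearEquiv.range, Submodule.map_top,
    Submodule.range_subtype]

theorem scale (M : Model N Q) : ∃ c : ℝ, 0 < c ∧ (∀ p q, ses M.B p q = c * ses (B0 Q) p q) ∧
    (∀ x y, ses M.B₂ x y = (c * c : ℂ) * braket ((b2 Q).repr x) ((b2 Q).repr y)) ∧
    ∀ x y, ses M.BN x y = ((c ^ N : ℝ) : ℂ) * braket ((bN N Q).repr x) ((bN N Q).repr y) := by
  obtain ⟨c, hc, h⟩ := inv_unique M.B M.B_inv
  refine ⟨c, hc, h, ses_basis _ _ fun ⟨a, b⟩ ⟨a', b'⟩ => ?_, ses_basis _ _ fun x y => ?_⟩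
  · rw [b2, Basis.tensorProduct_apply, Basis.tensorProduct_apply, ← ses_apply, M.B₂_tmul,
      ses_apply, ses_apply, h, h, B0_be, B0_be]
    by_cases h1 : a = a' <;> by_cases h2 : b = b' <;> simp [h1, h2]
  · rw [bN_apply, bN_apply, ← ses_apply, M.BN_tprod]
    simp only [ses_apply, h, B0_be, Finset.prod_mul_distrib, Fintype.prod_boole, ← funext_iff]
    by_cases h1 : x = y <;> simp [h1]

theorem H_eq {q : ℕ} (M : Model N (q + 1)) {P : Mat (q + 1)} (hP : IsPairProj (q + 1) P) :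
    M.H = ∑ i, ∑ j ∈ Finset.Ioi i, opT P i j := by
  obtain ⟨c, -, -, h2, -⟩ := M.scale
  have e : M.P = opP P := IsOrthProj.unique M.B₂ (M.W_eq ▸ M.P_proj) (orth_opP hP _ h2)
  refine Finset.sum_congr rfl fun i _ => Finset.sum_congr rfl fun j hj => ?_
  have h := Finset.mem_Ioi.1 hj
  exact (e ▸ M.T_on i j h).unique (on_opT P h.ne)

theorem repr_H (hQ : 1 ≤ Q) (M : Model N Q) {P : Mat Q} (hP : IsPairProj Q P)
    (Ψ : ⨂[ℂ]^N (U Q)) : ⇑((bN N Q).repr (M.H Ψ)) = pairSum P ((bN N Q).repr Ψ) := by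
  obtain ⟨q, rfl⟩ : ∃ q, Q = q + 1 := ⟨Q - 1, by omega⟩
  rw [M.H_eq hP, repr_sumT]

end Data

theorem model_all (N Q : ℕ) (hQ : 1 ≤ Q) :
    Nonempty (Model N Q) ∧ WellDefined N (rep Q) (rep (2 * (Q - 1))) := by
  obtain ⟨P, hP, -⟩ := unique_pairProj Q
  have hf : ∀ M : Model N Q, ∀ Ψ ∈ fermi N (U Q), M.H Ψ ∈ fermi N (U Q) := fun M Ψ h => by
    rw [mem_fermi, M.repr_H hQ hP]
    exact Levels.pairSum_fermionic hP ((mem_fermi Ψ).1 h)
  obtain ⟨q, rfl⟩ : ∃ q, Q = q + 1 := ⟨Q - 1, by omega⟩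
  refine ⟨model_ex N q, fun M M' => ⟨Subrepresentation.ext (M.W_eq.trans M'.W_eq.symm),
    (M.H_eq hP).trans (M'.H_eq hP).symm, ?_, hf M⟩⟩
  obtain ⟨c, hc, h, -⟩ := M.scale
  obtain ⟨c', hc', h', -⟩ := M'.scale
  refine ⟨c' / c, div_pos hc' hc, fun p q => ?_⟩
  have : (c : ℂ) ≠ 0 := by exact_mod_cast hc.ne'
  rw [ses_apply, ses_apply, h, h']
  push_cast
  field_simp

end Vale.Agent.P359W29

end
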