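import Vale.Agent.P359W29.E

/-!
P359W29, part F: the gap.
-/

set_option linter.all false
set_option maxSynthPendingDepth 3

noncomputable section

namespace Vale.Agent.P359W29

open Module
open Vale.Agent.P359
open scoped TensorProduct ComplexConjugate

theorem orth_one {V : Type} [AddCommGroup V] [Module ℂ V] (B : InnerProductSpace.Core ℂ V) {L : V}
    (hL : ses B L L ≠ 0) :
    IsOrthProj B (ℂ ∙ L) (((ses B L L)⁻¹ • ses B L).smulRight L) := fun x => by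
  refine ⟨Submodule.smul_mem _ _ (Submodule.mem_span_singleton_self L), fun w hw => ?_⟩
  obtain ⟨a, rfl⟩ := Submodule.mem_span_singleton.1 hw
  simp only [ses_apply, LinearMap.map_smulₛₗ, LinearMap.smul_apply, map_sub,
    LinearMap.smulRight_apply, smul_eq_mul, RingHom.id_apply]
  field_simp
  ring

variable {N : ℕ} {ΨL : ⨂[ℂ]^N (U (3 * (N - 1)))}

theorem laughlin_facts (hN : 2 ≤ N) (h : toPoly N _ ΨL = laughlinPol N) :
    ΨL ∈ fermi N (U (3 * (N - 1))) ∧ ΨL ≠ 0 ∧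
      ∀ M : Model N (3 * (N - 1)), ∀ Ψ ∈ fermi N (U (3 * (N - 1))), M.H Ψ = 0 ↔ Ψ ∈ ℂ ∙ ΨL := by
  obtain ⟨P, hP, -⟩ := unique_pairProj (3 * (N - 1))
  obtain ⟨δ, -, h1⟩ := AllFlux.laughlin_all
  obtain ⟨h2, h3, -⟩ := h1 N hN P hP
  have e := repr_laughlin h
  refine ⟨(mem_fermi _).2 (e ▸ h2), fun k => h3 (by rw [← e, k]; simp), fun M Ψ hΨ => ?_⟩
  have h4 := Levels.zero_iff_laughlin hN hP ((bN N _).repr Ψ)
  rw [and_iff_right ((mem_fermi Ψ).1 hΨ), ← M.repr_H (by omega) hP, ← e] at h4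
  rw [Submodule.mem_span_singleton]
  constructor
  · intro k
    obtain ⟨c, hc⟩ := h4.1 (by rw [k]; simp)
    exact ⟨c, (bN N _).ext_elem fun x => by simpa using (congrFun hc x).symm⟩
  · rintro ⟨c, rfl⟩
    exact (bN N _).ext_elem fun x => by simpa using congrFun (h4.2 ⟨c, by simp⟩) x

theorem gap_of (hN : 2 ≤ N) (h : toPoly N _ ΨL = laughlinPol N) (M : Model N (3 * (N - 1)))
    {δ : ℝ} (hg : ∀ P, IsPairProj (3 * (N - 1)) P → ∀ Ψ, IsFermionic Ψ →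
      δ * (braket (perpPart Ψ) (perpPart Ψ)).re ≤ (braket Ψ (pairSum P Ψ)).re) : M.Gap ΨL δ := by
  obtain ⟨P, hP, -⟩ := unique_pairProj (3 * (N - 1))
  obtain ⟨c, hc, -, -, hB⟩ := M.scale
  obtain ⟨r, hr, e⟩ := ses_pos M.BN (laughlin_facts hN h).2.1
  have h0 : ses M.BN ΨL ΨL ≠ 0 := by rw [e]; exact_mod_cast hr.ne'
  have ho := orth_one M.BN h0
  refine ⟨_, ho, fun Ψ hΨ => ?_⟩
  set Φ := Ψ - ((ses M.BN ΨL ΨL)⁻¹ • ses M.BN ΨL).smulRight ΨL Ψ with hΦ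
  have hc' : ((c ^ N : ℝ) : ℂ) ≠ 0 := by exact_mod_cast (pow_pos hc N).ne'
  have e1 : ⇑((bN N _).repr Φ) = perpPart ((bN N _).repr Ψ) := by
    rw [hΦ, perpPart, ← repr_laughlin h, map_sub, LinearMap.smulRight_apply, map_smul,
      LinearMap.smul_apply, hB, hB, smul_eq_mul, mul_inv, mul_mul_mul_comm, inv_mul_cancel₀ hc',
      one_mul, inv_mul_eq_div]
    rfl
  have e2 : ses M.BN Ψ Φ = ses M.BN Φ Φ := by
    have h1 := (ho Ψ).2 _ (ho Ψ).1
    rw [ses_apply, ← hΦ] at h1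
    have h2 := LinearMap.congr_fun (map_sub (ses M.BN) Ψ
      (((ses M.BN ΨL ΨL)⁻¹ • ses M.BN ΨL).smulRight ΨL Ψ)) Φ
    rw [LinearMap.sub_apply, h1, sub_zero] at h2
    exact h2.symm
  rw [ses_apply, ses_apply, e2, hB, hB, e1, M.repr_H (by omega) hP, Complex.re_ofReal_mul,
    Complex.re_ofReal_mul, mul_left_comm]
  exact mul_le_mul_of_nonneg_left (hg P hP _ ((mem_fermi Ψ).1 hΨ)) (pow_pos hc N).le

theorem braket_sum {ι κ : Type} [Fintype ι] [Fintype κ] (x : ι → ℂ) (g : κ → ℂ) (y : κ → ι → ℂ) :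
    braket x (∑ k, g k • y k) = ∑ k, g k * braket x (y k) := by
  simp only [braket, Finset.sum_apply, Pi.smul_apply, smul_eq_mul, Finset.mul_sum]
  rw [Finset.sum_comm]
  exact Finset.sum_congr rfl fun k _ => Finset.sum_congr rfl fun i _ => by ring

theorem levels_of {Q D : ℕ} (hQ : 1 ≤ Q) (M : Model N Q) {P : Mat Q} (hP : IsPairProj Q P)
    {E : Fin D → ℝ} (h : Levels.IsLevels N P E) : M.IsLevels E := by
  obtain ⟨h0, Ψ, h1, h2, h3, h4⟩ := h
  have e : ∀ k, ⇑((bN N Q).repr ((bN N Q).equivFun.symm (Ψ k))) = Ψ k := fun k =>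
    (bN N Q).equivFun.apply_symm_apply _
  let v : Fin D → fermi N (U Q) := fun k => ⟨_, (mem_fermi _).2 ((e k).symm ▸ h1 k)⟩
  have hv : ∀ g : Fin D → ℂ, ⇑((bN N Q).repr (∑ k, g k • v k : fermi N (U Q)).1) = ∑ k, g k • Ψ k :=
    fun g => by
      simp only [Submodule.coe_sum, Submodule.coe_smul, map_sum, map_smul, Finsupp.coe_finset_sum,
        Finsupp.coe_smul, v, e]
  have li : LinearIndependent ℂ v := Fintype.linearIndependent_iff.2 fun g hg j => by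
    have h5 := braket_sum (Ψ j) g Ψ
    simp only [h2, mul_ite, mul_one, mul_zero, Finset.sum_ite_eq, Finset.mem_univ, if_true] at h5
    rw [← h5, ← hv, hg]
    simp [braket]
  have sp : ⊤ ≤ Submodule.span ℂ (Set.range v) := fun x _ => by
    rw [show x = ∑ k, braket (Ψ k) ((bN N Q).repr x.1) • v k from
      Subtype.ext ((bN N Q).ext_elem fun y => by
        rw [hv, ← h3 _ ((mem_fermi _).1 x.2)])]
    exact Submodule.sum_mem _ fun k _ => Submodule.smul_mem _ _ (Submodule.subset_span ⟨k, rfl⟩)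
  refine ⟨h0, Basis.mk li sp, fun k => (bN N Q).ext_elem fun y => ?_⟩
  rw [Basis.mk_apply, M.repr_H hQ hP, map_smul, Finsupp.smul_apply, e, h4]
  rfl

theorem levelGap_of (hN : 2 ≤ N) (h : toPoly N _ ΨL = laughlinPol N) (M : Model N (3 * (N - 1)))
    {δ : ℝ} (hg : M.Gap ΨL δ) : M.LevelGap δ := by
  obtain ⟨P, hP, -⟩ := unique_pairProj (3 * (N - 1))
  have hQ : 1 ≤ 3 * (N - 1) := by omega
  constructor
  · obtain ⟨D, hD⟩ := Nat.exists_eq_add_of_le' (Levels.two_le_dim hN)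
    have h1 : ∃ E : Fin (Nat.choose (3 * (N - 1) + 1) N) → ℝ, M.IsLevels E :=
      ⟨_, levels_of hQ M hP (Levels.energy_isLevels hP)⟩
    rw [hD] at h1
    exact ⟨D, h1⟩
  rintro D E ⟨hm, b, hb⟩
  obtain ⟨l1, l2, l3⟩ := laughlin_facts hN h
  obtain ⟨c, hc, -, -, hB⟩ := M.scale
  have hL : M.H ΨL = 0 := (l3 M _ l1).2 (Submodule.mem_span_singleton_self _)
  have b0 : ∀ k, (b k).1 ≠ 0 := fun k e => b.ne_zero k (Subtype.ext e)
  have n0 : ∀ k, 0 ≤ E k := fun k => by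
    obtain ⟨r, hr, e⟩ := ses_pos M.BN (b0 k)
    have h1 : 0 ≤ (ses M.BN (b k).1 (M.H (b k))).re := by
      rw [hB, M.repr_H hQ hP, Complex.re_ofReal_mul]
      exact mul_nonneg (pow_pos hc N).le (Levels.energy_nonneg hP _)
    rw [hb, map_smul, e, smul_eq_mul, ← Complex.ofReal_mul, Complex.ofReal_re] at h1
    exact nonneg_of_mul_nonneg_left h1 hr
  have z0 : E 0 = 0 := by
    by_contra k
    have h1 : ∀ k', (E k' : ℂ) ≠ 0 := fun k' => by
      exact_mod_cast ((lt_of_le_of_ne (n0 0) (Ne.symm k)).trans_le (hm (Fin.zero_le k'))).ne'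
    have h2 : ∑ k, (b.repr ⟨ΨL, l1⟩ k * E k) • b k = 0 := Subtype.ext (by
      have h3 := congrArg (fun x : fermi N (U (3 * (N - 1))) => M.H x.1) (b.sum_repr ⟨ΨL, l1⟩)
      simpa only [Submodule.coe_sum, Submodule.coe_smul, map_sum, map_smul, hb, smul_smul, hL,
        Submodule.coe_zero] using h3)
    have h3 := Fintype.linearIndependent_iff.1 b.linearIndependent _ h2
    exact l2 (congrArg Subtype.val (b.ext_elem (y := 0) fun k => by
      simpa [h1 k] using h3 k))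
  have z1 : (E 1 : ℂ) ≠ 0 := fun k => by
    obtain ⟨a, ha⟩ := Submodule.mem_span_singleton.1
      ((l3 M _ (b 0).2).1 (by rw [hb, z0]; simp))
    obtain ⟨a', ha'⟩ := Submodule.mem_span_singleton.1 ((l3 M _ (b 1).2).1 (by rw [hb, k]; simp))
    have h1 : a' • b 0 = a • b 1 := Subtype.ext (by
      simp only [Submodule.coe_smul, ← ha, ← ha', smul_smul, mul_comm])
    have h2 := congrArg (fun x => b.repr x 1) h1
    simp at h2
    exact b0 0 (by rw [← ha, ← h2, zero_smul])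
  obtain ⟨PL, hPL, hg⟩ := hg
  have o1 : ses M.BN ΨL (b 1).1 = 0 := by
    have h1 : ses M.BN ΨL (M.H (b 1)) = ses M.BN (M.H ΨL) (b 1).1 := by
      rw [hB, hB, M.repr_H hQ hP, M.repr_H hQ hP, Levels.braket_pairSum hP]
    rw [hb, hL, map_smul, map_zero, LinearMap.zero_apply, smul_eq_mul] at h1
    exact (mul_eq_zero.1 h1).resolve_left z1
  have p1 : PL (b 1).1 = 0 := by
    obtain ⟨a, ha⟩ := Submodule.mem_span_singleton.1 (hPL (b 1).1).1
    have h1 := (hPL (b 1).1).2 _ (Submodule.mem_span_singleton_self ΨL)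
    rw [ses_apply, map_sub, o1, ← ha, map_smul, zero_sub, neg_eq_zero, smul_eq_mul] at h1
    rw [← ha, (mul_eq_zero.1 h1).resolve_right fun k => l2 (M.BN.definite _ k), zero_smul]
  obtain ⟨r, hr, e⟩ := ses_pos M.BN (b0 1)
  have h1 := hg _ (b 1).2
  rw [ses_apply, ses_apply, p1, sub_zero, hb, map_smul, e, smul_eq_mul, ← Complex.ofReal_mul,
    Complex.ofReal_re, Complex.ofReal_re] at h1
  exact ⟨z0, by rw [z0, sub_zero]; exact le_of_mul_le_mul_right h1 hr⟩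

theorem main :
    (∀ Q, (rep Q).IsIrreducible) ∧
    (∀ N Q, AntiInj N (U Q) ∧ Function.Injective (toPoly N Q)) ∧
    (∀ N Q, 1 ≤ Q → Nonempty (Model N Q) ∧ WellDefined N (rep Q) (rep (2 * (Q - 1)))) ∧
    (∀ N, 2 ≤ N → ∃ ΨL, toPoly N (3 * (N - 1)) ΨL = laughlinPol N ∧
      ∀ M : Model N (3 * (N - 1)), M.SpansKer ΨL) ∧
    (∃ δ : ℝ, 0 < δ ∧ ∀ N, 2 ≤ N → ∀ (M : Model N (3 * (N - 1))) ΨL,
      toPoly N _ ΨL = laughlinPol N → M.Gap ΨL δ ∧ M.LevelGap δ) ∧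
    ∀ δ : ℝ, δ < 1 / 50 → ∃ N₀, ∀ N, N₀ ≤ N → ∀ (M : Model N (3 * (N - 1))) ΨL,
      toPoly N _ ΨL = laughlinPol N → M.Gap ΨL δ ∧ M.LevelGap δ := by
  refine ⟨irred, fun N Q => ⟨iota_inj N Q, toPoly_inj N Q⟩, model_all, fun N hN => ?_, ?_,
    fun δ hδ => ?_⟩
  · obtain ⟨Ψ, h⟩ := exists_laughlin N
    obtain ⟨h1, h2, h3⟩ := laughlin_facts hN h
    exact ⟨Ψ, h, fun M => ⟨h1, h2, h3 M⟩⟩
  · obtain ⟨δ, hδ, h⟩ := AllFlux.laughlin_all
    refine ⟨δ, hδ, fun N hN M Ψ k => ?_⟩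
    have g := gap_of hN k M fun P hP => (h N hN P hP).2.2.2
    exact ⟨g, levelGap_of hN k M g⟩
  · obtain ⟨N₀, h⟩ := AllFlux.laughlin_asymptotic δ hδ
    refine ⟨max N₀ 2, fun N hN M Ψ k => ?_⟩
    have g := gap_of (le_of_max_le_right hN) k M (h N (le_of_max_le_left hN))
    exact ⟨g, levelGap_of (le_of_max_le_right hN) k M g⟩

end Vale.Agent.P359W29

end
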